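import Mathlib

/-!
# Convex bodies, polars and covering numbers in `Fin n → ℝ`
-/

noncomputable section

open Finset
open scoped BigOperators Pointwise

namespace Vale.Agent.P126

variable {n : ℕ}

/-- An origin-symmetric convex body. -/
def IsBody (K : Set (Fin n → ℝ)) : Prop :=
  Convex ℝ K ∧ IsCompact K ∧ (interior K).Nonempty ∧ ∀ x ∈ K, -x ∈ K

/-- The polar set with respect to the standard inner product. -/
def polar (K : Set (Fin n → ℝ)) : Set (Fin n → ℝ) := {y | ∀ x ∈ K, x ⬝ᵥ y ≤ 1}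

/-- `A` is covered by `N` translates of `B`. -/
def CoveredBy (A B : Set (Fin n → ℝ)) (N : ℕ) : Prop :=
  ∃ v : Fin N → Fin n → ℝ, A ⊆ ⋃ i, (fun b => v i + b) '' B

/-- The least number of translates of `B` covering `A`. -/
def covNum (A B : Set (Fin n → ℝ)) : ℕ := sInf {N | CoveredBy A B N}

theorem coveredBy_finset {A B : Set (Fin n → ℝ)} (S : Finset (Fin n → ℝ))
    (h : ∀ a ∈ A, ∃ s ∈ S, a - s ∈ B) : CoveredBy A B S.card := by
  refine ⟨fun i => (S.equivFin.symm i : Fin n → ℝ), fun a ha => ?_⟩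
  obtain ⟨s, hs, hsa⟩ := h a ha
  exact Set.mem_iUnion.2 ⟨S.equivFin ⟨s, hs⟩, a - s, hsa, by simp⟩

theorem covNum_le_card {A B : Set (Fin n → ℝ)} (S : Finset (Fin n → ℝ))
    (h : ∀ a ∈ A, ∃ s ∈ S, a - s ∈ B) : covNum A B ≤ S.card :=
  Nat.sInf_le (coveredBy_finset S h)

theorem exists_coveredBy {A B : Set (Fin n → ℝ)} (hA : IsCompact A)
    (hB : (interior B).Nonempty) : ∃ N, CoveredBy A B N := by
  obtain ⟨b, hb⟩ := hB
  obtain ⟨S, hS⟩ := hA.elim_finite_subcover (fun v : Fin n → ℝ => (fun x => x - v) ⁻¹' interior B)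
    (fun v => isOpen_interior.preimage (continuous_id.sub continuous_const))
    (fun a _ => Set.mem_iUnion.2 ⟨a - b, by simpa using hb⟩)
  refine ⟨_, coveredBy_finset S fun a ha => ?_⟩
  obtain ⟨s, hs, hsa⟩ := Set.mem_iUnion₂.1 (hS ha)
  exact ⟨s, hs, interior_subset (by simpa using hsa)⟩

theorem coveredBy_covNum {A B : Set (Fin n → ℝ)} (hA : IsCompact A)
    (hB : (interior B).Nonempty) : CoveredBy A B (covNum A B) :=
  Nat.sInf_mem (exists_coveredBy hA hB)

theorem card_le_covNum {A B : Set (Fin n → ℝ)} (hA : IsCompact A) (hB : (interior B).Nonempty)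
    (S : Finset (Fin n → ℝ)) (hSA : ∀ s ∈ S, s ∈ A)
    (hsep : ∀ s ∈ S, ∀ s' ∈ S, s ≠ s' → ∀ b ∈ B, ∀ b' ∈ B, s - s' ≠ b - b') :
    S.card ≤ covNum A B := by
  classical
  obtain ⟨v, hv⟩ := coveredBy_covNum hA hB
  have : ∀ s ∈ S, ∃ i, ∃ b ∈ B, v i + b = s := fun s hs => by
    obtain ⟨i, hi⟩ := Set.mem_iUnion.1 (hv (hSA s hs))
    exact ⟨i, hi⟩
  choose f b hb hfb using this
  simpa using card_le_card_of_injOn (s := S.attach) (t := univ)
    (fun s => f s.1 s.2) (fun _ _ => mem_univ _) (fun s _ s' _ he => by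
      by_contra hne
      refine hsep s.1 s.2 s'.1 s'.2 (fun h => hne (Subtype.ext h)) _ (hb s.1 s.2) _ (hb s'.1 s'.2) ?_
      conv_lhs => rw [← hfb s.1 s.2, ← hfb s'.1 s'.2]
      simp only at he
      rw [he, add_sub_add_left_eq_sub])

theorem smul_interior_nonempty {B : Set (Fin n → ℝ)} (hB : (interior B).Nonempty) {t : ℝ}
    (ht : t ≠ 0) : (interior (t • B)).Nonempty := by
  rw [interior_smul₀ ht]
  exact hB.smul_set

/-- A maximum-cardinality separated set is a net. -/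
theorem exists_max_sep {V : Type*} (A : Set V) (near : V → V → Prop)
    (hrefl : ∀ x ∈ A, near x x) (N : ℕ)
    (hbound : ∀ S : Finset V, (∀ s ∈ S, s ∈ A) →
      (∀ s ∈ S, ∀ s' ∈ S, s ≠ s' → ¬near s s') → S.card ≤ N)
    (hsymm : ∀ x ∈ A, ∀ y ∈ A, near x y → near y x) :
    ∃ S : Finset V, (∀ s ∈ S, s ∈ A) ∧ (∀ s ∈ S, ∀ s' ∈ S, s ≠ s' → ¬near s s') ∧
      (∀ x ∈ A, ∃ s ∈ S, near x s) ∧
      (∀ T : Finset V, (∀ s ∈ T, s ∈ A) → (∀ s ∈ T, ∀ s' ∈ T, s ≠ s' → ¬near s s') →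
        T.card ≤ S.card) := by
  classical
  set good : Set ℕ := {m | ∃ S : Finset V, (∀ s ∈ S, s ∈ A) ∧
    (∀ s ∈ S, ∀ s' ∈ S, s ≠ s' → ¬near s s') ∧ S.card = m} with hgood
  have hbdd : BddAbove good := ⟨N, by
    rintro m ⟨S, h1, h2, rfl⟩
    exact hbound S h1 h2⟩
  have hne : good.Nonempty := ⟨0, ∅, by simp⟩
  obtain ⟨S, h1, h2, h3⟩ := Nat.sSup_mem hne hbdd
  refine ⟨S, h1, h2, fun x hx => ?_, fun T hT1 hT2 => h3 ▸ le_csSup hbdd ⟨T, hT1, hT2, rfl⟩⟩
  by_contra hno
  push Not at hno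
  have hxS : x ∉ S := fun h => hno x h (hrefl x hx)
  have : (insert x S).card ≤ S.card := by
    rw [h3]
    refine le_csSup hbdd ⟨insert x S, fun s hs => ?_, fun s hs s' hs' hne => ?_, rfl⟩
    · rcases mem_insert.1 hs with rfl | h
      exacts [hx, h1 s h]
    · rcases mem_insert.1 hs with rfl | h <;> rcases mem_insert.1 hs' with rfl | h'
      · exact absurd rfl hne
      · exact hno s' h'
      · exact fun hn => hno s h (hsymm s (h1 s h) _ hx hn)
      · exact h2 s h s' h' hne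
  rw [card_insert_of_notMem hxS] at this
  omega

theorem IsBody.zero_mem_interior {K : Set (Fin n → ℝ)} (hK : IsBody K) : (0 : Fin n → ℝ) ∈ interior K := by
  obtain ⟨x, hx⟩ := hK.2.2.1
  have hneg : -x ∈ interior K := by
    have e : -K = K := Set.ext fun y => ⟨fun h => by simpa using hK.2.2.2 _ (Set.mem_neg.1 h),
      fun h => Set.mem_neg.2 (hK.2.2.2 y h)⟩
    have : interior (-K) = -interior K := by
      simpa only [Homeomorph.coe_neg, ← Set.neg_preimage] using
        ((Homeomorph.neg (Fin n → ℝ)).preimage_interior K).symm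
    rw [e] at this
    rw [this]; simpa using hx
  have := hK.1.interior hx hneg (a := 1/2) (b := 1/2) (by norm_num) (by norm_num) (by norm_num)
  simpa using this

theorem IsBody.zero_mem {K : Set (Fin n → ℝ)} (hK : IsBody K) : (0 : Fin n → ℝ) ∈ K :=
  interior_subset hK.zero_mem_interior

theorem abs_dot_le {K : Set (Fin n → ℝ)} (hK : IsBody K) {x y : Fin n → ℝ} (hx : x ∈ K)
    (hy : y ∈ polar K) : |x ⬝ᵥ y| ≤ 1 := by
  have h := hy _ (hK.2.2.2 x hx)
  rw [neg_dotProduct] at h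
  exact abs_le.2 ⟨by linarith, hy x hx⟩

theorem abs_dot_le_norm (x y : Fin n → ℝ) : |x ⬝ᵥ y| ≤ n * ‖x‖ * ‖y‖ := by
  refine (abs_sum_le_sum_abs _ _).trans ?_
  calc ∑ i, |x i * y i| ≤ ∑ _i : Fin n, ‖x‖ * ‖y‖ := sum_le_sum fun i _ => by
        rw [abs_mul]
        exact mul_le_mul (norm_le_pi_norm x i) (norm_le_pi_norm y i) (abs_nonneg _) (norm_nonneg _)
    _ = _ := by simp [mul_assoc]

theorem isBody_polar {K : Set (Fin n → ℝ)} (hK : IsBody K) : IsBody (polar K) := by
  refine ⟨fun u hu v hv s t hs ht hst x hx => ?_, ?_, ?_, fun y hy x hx => ?_⟩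
  · rw [dotProduct_add, dotProduct_smul, dotProduct_smul, smul_eq_mul, smul_eq_mul]
    nlinarith [mul_le_mul_of_nonneg_left (hu x hx) hs, mul_le_mul_of_nonneg_left (hv x hx) ht]
  · obtain ⟨r, hr, hball⟩ := Metric.isOpen_iff.1 isOpen_interior _ hK.zero_mem_interior
    refine Metric.isCompact_of_isClosed_isBounded ?_ ?_
    · have : polar K = ⋂ x ∈ K, {y | x ⬝ᵥ y ≤ 1} := by ext y; simp [polar]
      rw [this]
      refine isClosed_biInter fun x _ => isClosed_le ?_ continuous_const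
      unfold dotProduct
      fun_prop
    · refine (Metric.isBounded_closedBall (x := (0 : Fin n → ℝ)) (r := 2 / r)).subset fun y hy => ?_
      rw [mem_closedBall_zero_iff, pi_norm_le_iff_of_nonneg (by positivity)]
      intro i
      have hmem : (Pi.single i (r / 2) : Fin n → ℝ) ∈ K := by
        refine interior_subset (hball ?_)
        rw [mem_ball_zero_iff, Pi.norm_single, Real.norm_eq_abs, abs_of_pos (by positivity)]
        linarith
      have h := abs_dot_le hK hmem hy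
      rw [single_dotProduct, abs_mul, abs_of_pos (by positivity : 0 < r / 2)] at h
      rw [Real.norm_eq_abs, le_div_iff₀ hr]
      linarith
  · obtain ⟨R, hR⟩ := hK.2.1.isBounded.exists_norm_le
    refine ⟨0, mem_interior.2 ⟨Metric.ball 0 (1 / (n * |R| + 1)), fun y hy x hx => ?_,
      Metric.isOpen_ball, Metric.mem_ball_self (by positivity)⟩⟩
    rw [mem_ball_zero_iff, lt_div_iff₀ (by positivity)] at hy
    have h1 := (hR x hx).trans (le_abs_self R)
    have h2 := (le_abs_self _).trans (abs_dot_le_norm x y)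
    have h3 : (n : ℝ) * ‖x‖ * ‖y‖ ≤ n * |R| * ‖y‖ := by gcongr
    nlinarith [norm_nonneg y]
  · have h := abs_dot_le hK hx hy
    rw [dotProduct_neg]
    linarith [neg_abs_le (x ⬝ᵥ y)]

/-- Dual witness for a point outside a dilate of a body. -/
theorem exists_dual {L : Set (Fin n → ℝ)} (hL : IsBody L) {t : ℝ} (ht : 0 < t)
    {z : Fin n → ℝ} (hz : z ∉ t • L) : ∃ g ∈ polar L, t < z ⬝ᵥ g := by
  have hw : t⁻¹ • z ∉ L := fun h => hz (by
    simpa [ht.ne'] using Set.smul_mem_smul_set (a := t) h)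
  obtain ⟨f, u, hfu, huw⟩ := geometric_hahn_banach_closed_point hL.1 hL.2.1.isClosed hw
  have hu : 0 < u := by simpa using hfu 0 hL.zero_mem
  set g : Fin n → ℝ := fun c => f (Pi.single c 1) with hg
  have hf : ∀ y : Fin n → ℝ, f y = y ⬝ᵥ g := by
    intro y
    conv_lhs => rw [pi_eq_sum_univ' y]
    simp [dotProduct, hg]
  refine ⟨u⁻¹ • g, fun x hx => ?_, ?_⟩
  · rw [dotProduct_smul, smul_eq_mul, ← hf, inv_mul_le_iff₀ hu, mul_one]
    exact (hfu x hx).le
  · rw [dotProduct_smul, smul_eq_mul, lt_inv_mul_iff₀ hu]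
    rw [hf, smul_dotProduct, smul_eq_mul, lt_inv_mul_iff₀ ht] at huw
    linarith

theorem polar_polar {K : Set (Fin n → ℝ)} (hK : IsBody K) : polar (polar K) = K := by
  refine Set.Subset.antisymm (fun z hz => ?_) (fun z hz y hy => ?_)
  · by_contra h
    obtain ⟨g, hg, hlt⟩ := exists_dual hK one_pos (z := z) (by rwa [one_smul])
    exact absurd (hz g hg) (not_le.2 (by rwa [dotProduct_comm]))
  · rw [dotProduct_comm]; exact hy z hz

end Vale.Agent.P126

end
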