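import Mathlib

/-!
# Finite relative entropy, decoding lower bound, and concentration of sample means
-/

noncomputable section

open Finset Real
open scoped BigOperators

namespace Vale.Agent.P126

variable {ι α : Type*} [Fintype ι]

/-- A probability vector. -/
def IsProb (p : ι → ℝ) : Prop := (∀ i, 0 ≤ p i) ∧ ∑ i, p i = 1

/-- Absolute continuity of vectors. -/
def Dominated (p q : ι → ℝ) : Prop := ∀ i, q i = 0 → p i = 0

/-- Relative entropy. -/
def relEnt (p q : ι → ℝ) : ℝ := ∑ i, p i * log (p i / q i)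

theorem gibbs {p q : ι → ℝ} (hp : IsProb p) (hq : ∀ i, 0 ≤ q i) (h : Dominated p q) (φ : ι → ℝ) :
    ∑ i, p i * φ i - (∑ i, q i * exp (φ i) - 1) ≤ relEnt p q := by
  have key : ∀ i, p i * φ i - q i * exp (φ i) + p i ≤ p i * log (p i / q i) := by
    intro i
    rcases eq_or_lt_of_le (hp.1 i) with h0 | h0
    · rw [← h0]; simp; exact mul_nonneg (hq i) (exp_pos _).le
    have hq0 : 0 < q i := lt_of_le_of_ne (hq i) fun e => h0.ne' (h i e.symm)
    have h1 := log_le_sub_one_of_pos (x := q i * exp (φ i) / p i) (by positivity)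
    rw [log_div (by positivity) h0.ne', log_mul hq0.ne' (exp_pos _).ne', log_exp] at h1
    rw [log_div h0.ne' hq0.ne']
    have h2 := mul_le_mul_of_nonneg_left h1 h0.le
    have h3 : p i * (q i * exp (φ i) / p i - 1) = q i * exp (φ i) - p i := by field_simp
    nlinarith
  have := Finset.sum_le_sum fun i (_ : i ∈ univ) => key i
  rw [sum_add_distrib, sum_sub_distrib, hp.2] at this
  rw [relEnt]
  linarith

theorem relEnt_nonneg {p q : ι → ℝ} (hp : IsProb p) (hq : IsProb q) (h : Dominated p q) :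
    0 ≤ relEnt p q := by
  have := gibbs hp hq.1 h (fun _ => 0)
  simpa [hq.2] using this

/-- The product vector on `k` samples. -/
def iid (k : ℕ) (p : ι → ℝ) (S : Fin k → ι) : ℝ := ∏ j, p (S j)

theorem sum_iid_prod (k : ℕ) (p : ι → ℝ) (g : Fin k → ι → ℝ) :
    ∑ S : Fin k → ι, iid k p S * ∏ j, g j (S j) = ∏ j, ∑ i, p i * g j i := by
  classical
  rw [Fintype.prod_sum]
  refine sum_congr rfl fun S _ => ?_
  rw [iid, ← prod_mul_distrib]

theorem isProb_iid (k : ℕ) {p : ι → ℝ} (hp : IsProb p) : IsProb (iid k p) := by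
  refine ⟨fun S => prod_nonneg fun j _ => hp.1 _, ?_⟩
  have := sum_iid_prod k p fun _ _ => 1
  simpa [hp.2] using this

theorem sum_iid_one (k : ℕ) {p : ι → ℝ} (hp : IsProb p) (g : ι → ℝ) (j0 : Fin k) :
    ∑ S : Fin k → ι, iid k p S * g (S j0) = ∑ i, p i * g i := by
  classical
  have := sum_iid_prod k p fun j i => if j = j0 then g i else 1
  simp only [prod_ite_eq' univ j0 (fun j => g (_ : ι)), mem_univ, if_true] at this
  rw [this, ← mul_prod_erase univ _ (mem_univ j0)]
  simp only [if_true]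
  rw [prod_eq_one fun j hj => ?_, mul_one]
  simp [ne_of_mem_erase hj, hp.2]

theorem relEnt_iid (k : ℕ) {p q : ι → ℝ} (hp : IsProb p) (h : Dominated p q) :
    relEnt (iid k p) (iid k q) = k * relEnt p q := by
  have e : ∀ S : Fin k → ι, iid k p S * log (iid k p S / iid k q S)
      = ∑ j, iid k p S * log (p (S j) / q (S j)) := by
    intro S
    rw [← mul_sum]
    by_cases h0 : iid k p S = 0
    · simp [h0]
    have hne : ∀ j, p (S j) ≠ 0 := fun j hj => h0 (prod_eq_zero (mem_univ j) hj)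
    rw [iid, iid, ← prod_div_distrib, log_prod fun j _ => div_ne_zero (hne j) fun e => hne j (h _ e)]
  simp only [relEnt, e]
  rw [sum_comm]
  simp only [sum_iid_one k hp (fun i => log (p i / q i))]
  simp

theorem decode_lower [Fintype α] (k : ℕ) {μ : α → ℝ} (hμ : IsProb μ) {u : ℝ} (hu : 0 ≤ u)
    (hatom : ∀ a, μ a ≤ exp (-u)) {lam : α → ι → ℝ} {ν : ι → ℝ} (hν : IsProb ν)
    (A : α → Finset (Fin k → ι))
    (hdis : ∀ a b, a ≠ b → Disjoint (A a) (A b))
    (hlam : ∀ a, μ a ≠ 0 → IsProb (lam a) ∧ Dominated (lam a) ν ∧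
      3 / 4 ≤ ∑ S ∈ A a, iid k (lam a) S) :
    3 / 4 * u - 1 ≤ k * ∑ a, μ a * relEnt (lam a) ν := by
  classical
  have hq := isProb_iid k hν
  have key : ∀ a, μ a * (3 / 4 * u) - μ a * exp u * ∑ S ∈ A a, iid k ν S
      ≤ k * (μ a * relEnt (lam a) ν) := by
    intro a
    by_cases h0 : μ a = 0
    · simp [h0]
    obtain ⟨hl, hd, hA⟩ := hlam a h0
    have hdom : Dominated (iid k (lam a)) (iid k ν) := by
      intro S hS
      obtain ⟨j, _, hj⟩ := prod_eq_zero_iff.1 hS
      exact prod_eq_zero (mem_univ j) (hd _ hj)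
    have g := gibbs (isProb_iid k hl) hq.1 hdom (fun S => if S ∈ A a then u else 0)
    rw [relEnt_iid k hl hd] at g
    have e1 : ∑ S : Fin k → ι, iid k (lam a) S * (if S ∈ A a then u else 0)
        = u * ∑ S ∈ A a, iid k (lam a) S := by
      simp only [mul_ite, mul_zero, sum_ite_mem, univ_inter, mul_sum]
      exact sum_congr rfl fun S _ => mul_comm _ _
    have e2 : ∑ S : Fin k → ι, iid k ν S * exp (if S ∈ A a then u else 0)
        ≤ 1 + exp u * ∑ S ∈ A a, iid k ν S := by
      calc ∑ S : Fin k → ι, iid k ν S * exp (if S ∈ A a then u else 0)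
          ≤ ∑ S : Fin k → ι, (iid k ν S + exp u * (if S ∈ A a then iid k ν S else 0)) := by
            refine sum_le_sum fun S _ => ?_
            split_ifs
            · nlinarith [hq.1 S, exp_pos u]
            · simp
        _ = _ := by rw [sum_add_distrib, hq.2, ← mul_sum, sum_ite_mem, univ_inter]
    rw [e1] at g
    have : 3 / 4 * u ≤ u * ∑ S ∈ A a, iid k (lam a) S := by nlinarith
    have hg : 3 / 4 * u - exp u * ∑ S ∈ A a, iid k ν S ≤ k * relEnt (lam a) ν := by linarith
    have := mul_le_mul_of_nonneg_left hg (hμ.1 a)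
    linarith
  have h1 := Finset.sum_le_sum fun a (_ : a ∈ univ) => key a
  rw [sum_sub_distrib, ← sum_mul, hμ.2, one_mul, ← mul_sum] at h1
  have h2 : ∑ a, μ a * exp u * ∑ S ∈ A a, iid k ν S ≤ 1 := by
    calc ∑ a, μ a * exp u * ∑ S ∈ A a, iid k ν S ≤ ∑ a, 1 * ∑ S ∈ A a, iid k ν S := by
          refine sum_le_sum fun a _ => mul_le_mul_of_nonneg_right ?_ (sum_nonneg fun S _ => hq.1 S)
          calc μ a * exp u ≤ exp (-u) * exp u :=
                mul_le_mul_of_nonneg_right (hatom a) (exp_pos u).le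
            _ = 1 := by rw [← exp_add]; simp
      _ = ∑ S ∈ univ.biUnion A, iid k ν S := by
          rw [sum_biUnion fun a _ b _ hab => hdis a b hab]; simp
      _ ≤ ∑ S, iid k ν S := sum_le_univ_sum_of_nonneg fun S => hq.1 S
      _ = 1 := hq.2
  linarith

theorem tail_one (k : ℕ) {p : ι → ℝ} (hp : IsProb p) {z : ι → ℝ} (hz : ∀ i, |z i| ≤ 1)
    {r : ℝ} (hr0 : 0 < r) (hr1 : r ≤ 1) :
    ∑ S : Fin k → ι,
      (if (k : ℝ) * r ≤ ∑ j, (z (S j) - ∑ i, p i * z i) then iid k p S else 0)
      ≤ exp (-(k * r ^ 2 / 16)) := by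
  set m := ∑ i, p i * z i with hm
  set s := r / 8 with hs
  have hm1 : |m| ≤ 1 := by
    refine (abs_sum_le_sum_abs _ _).trans ?_
    calc ∑ i, |p i * z i| ≤ ∑ i, p i := sum_le_sum fun i _ => by
          rw [abs_mul, abs_of_nonneg (hp.1 i)]
          exact mul_le_of_le_one_right (hp.1 i) (hz i)
      _ = 1 := hp.2
  have hmgf : ∑ i, p i * exp (s * (z i - m)) ≤ exp (4 * s ^ 2) := by
    have hpt : ∀ i, p i * exp (s * (z i - m))
        ≤ p i + s * (p i * z i - m * p i) + 4 * s ^ 2 * p i := by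
      intro i
      have hw : |s * (z i - m)| ≤ 2 * s := by
        rw [abs_mul, abs_of_pos (by positivity : 0 < s)]
        have : |z i - m| ≤ 2 := (abs_sub _ _).trans (by linarith [hz i])
        nlinarith
      have h := (abs_le.1 (abs_exp_sub_one_sub_id_le (hw.trans (by linarith)))).2
      have hw2 : (s * (z i - m)) ^ 2 ≤ 4 * s ^ 2 := by
        rw [← sq_abs]; nlinarith [abs_nonneg (s * (z i - m))]
      nlinarith [mul_le_mul_of_nonneg_left (h.trans hw2) (hp.1 i)]
    refine (sum_le_sum fun i _ => hpt i).trans ?_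
    rw [sum_add_distrib, sum_add_distrib, ← mul_sum, sum_sub_distrib, ← mul_sum, ← mul_sum, hp.2,
      ← hm]
    linarith [add_one_le_exp (4 * s ^ 2)]
  have hpos : ∀ S, 0 ≤ iid k p S := fun S => prod_nonneg fun j _ => hp.1 _
  calc ∑ S : Fin k → ι, (if (k : ℝ) * r ≤ ∑ j, (z (S j) - m) then iid k p S else 0)
      ≤ ∑ S : Fin k → ι, exp (-(s * (k * r))) * (iid k p S * ∏ j, exp (s * (z (S j) - m))) := by
        refine sum_le_sum fun S _ => ?_
        rw [← exp_sum, ← mul_sum, mul_left_comm, ← exp_add]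
        split_ifs with h
        · refine le_mul_of_one_le_right (hpos S) (one_le_exp ?_)
          nlinarith [mul_le_mul_of_nonneg_left h (by positivity : (0 : ℝ) ≤ s)]
        · exact mul_nonneg (hpos S) (exp_pos _).le
    _ = exp (-(s * (k * r))) * (∑ i, p i * exp (s * (z i - m))) ^ k := by
        rw [← mul_sum, sum_iid_prod k p fun _ i => exp (s * (z i - m))]; simp
    _ ≤ exp (-(s * (k * r))) * exp (4 * s ^ 2) ^ k := by
        refine mul_le_mul_of_nonneg_left (pow_le_pow_left₀ ?_ hmgf k) (exp_pos _).le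
        exact sum_nonneg fun i _ => mul_nonneg (hp.1 i) (exp_pos _).le
    _ = _ := by rw [← exp_nat_mul, ← exp_add, hs]; congr 1; ring

theorem concentration {β : Type*} [Fintype β] (k : ℕ) {p : ι → ℝ} (hp : IsProb p) {z : ι → β → ℝ}
    (hz : ∀ i c, |z i c| ≤ 1) {r : ℝ} (hr0 : 0 < r) (hr1 : r ≤ 1)
    (hk : 2 * (Fintype.card β : ℝ) * exp (-(k * r ^ 2 / 16)) ≤ 1 / 4) :
    3 / 4 ≤ ∑ S ∈ univ.filter (fun S : Fin k → ι =>
      ∀ c, |∑ j, (z (S j) c - ∑ i, p i * z i c)| < k * r), iid k p S := by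
  classical
  have hpos : ∀ S, 0 ≤ iid k p S := fun S => prod_nonneg fun j _ => hp.1 _
  have htot := (isProb_iid k hp).2
  rw [← sum_filter_add_sum_filter_not univ (fun S : Fin k → ι =>
    ∀ c, |∑ j, (z (S j) c - ∑ i, p i * z i c)| < k * r)] at htot
  have hpt : ∀ S : Fin k → ι,
      (if ¬(∀ c, |∑ j, (z (S j) c - ∑ i, p i * z i c)| < k * r) then iid k p S else 0)
      ≤ ∑ c, ((if (k : ℝ) * r ≤ ∑ j, (z (S j) c - ∑ i, p i * z i c) then iid k p S else 0)
        + (if (k : ℝ) * r ≤ ∑ j, ((-z (S j) c) - ∑ i, p i * (-z i c)) then iid k p S else 0)) := by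
    intro S
    have nn : ∀ c, 0 ≤ (if (k : ℝ) * r ≤ ∑ j, (z (S j) c - ∑ i, p i * z i c) then iid k p S else 0)
        + (if (k : ℝ) * r ≤ ∑ j, ((-z (S j) c) - ∑ i, p i * (-z i c)) then iid k p S else 0) := by
      intro c; split_ifs <;> linarith [hpos S]
    split_ifs with h
    · exact sum_nonneg fun c _ => nn c
    · push Not at h
      obtain ⟨c, hc⟩ := h
      refine le_trans ?_ (single_le_sum (fun c _ => nn c) (mem_univ c))
      rcases le_abs.1 hc with h1 | h1
      · rw [if_pos h1]; split_ifs <;> linarith [hpos S]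
      · have : (k : ℝ) * r ≤ ∑ j, ((-z (S j) c) - ∑ i, p i * (-z i c)) := by
          refine h1.trans_eq ?_
          rw [← sum_neg_distrib]
          refine sum_congr rfl fun j _ => ?_
          simp only [mul_neg, sum_neg_distrib]; ring
        rw [if_pos this]; split_ifs <;> linarith [hpos S]
  have hbad : ∑ S ∈ univ.filter (fun S : Fin k → ι =>
      ¬∀ c, |∑ j, (z (S j) c - ∑ i, p i * z i c)| < k * r), iid k p S ≤ 1 / 4 := by
    rw [sum_filter]
    refine (sum_le_sum fun S _ => hpt S).trans ?_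
    rw [sum_comm]
    calc _ ≤ ∑ _c : β, 2 * exp (-(k * r ^ 2 / 16)) := by
          refine sum_le_sum fun c _ => ?_
          rw [sum_add_distrib, two_mul]
          exact add_le_add (tail_one k hp (z := fun i => z i c) (fun i => hz i c) hr0 hr1)
            (tail_one k hp (z := fun i => -z i c) (fun i => by rw [abs_neg]; exact hz i c) hr0 hr1)
      _ = 2 * (Fintype.card β : ℝ) * exp (-(k * r ^ 2 / 16)) := by
          rw [sum_const, nsmul_eq_mul, card_univ]; ring
      _ ≤ _ := hk
  linarith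

end Vale.Agent.P126

end
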