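import Mathlib
import Vale.Agent.P126.Entropy

/-!
# Minimax for flat clusters, and packing from points with small high sets
-/

noncomputable section

open Finset
open scoped BigOperators

namespace Vale.Agent.P126

variable {α β : Type*} [Fintype α] [Fintype β]

theorem exists_cluster (x : α → β → ℝ) (w : α → ℝ) (hw : ∀ a, 0 ≤ w a) (a : α) {p ε : ℝ}
    (hp : 0 < p) (hε : 0 ≤ ε)
    (hsoft : ∀ y : β → ℝ, ∑ c, |y c| ≤ 1 →
      p < ∑ b, if y ⬝ᵥ x a - ε ≤ y ⬝ᵥ x b then w b else 0) :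
    ∃ q : α → ℝ, IsProb q ∧ (∀ b, q b ≤ w b / p) ∧ ‖∑ b, q b • x b - x a‖ ≤ ε := by
  classical
  set D : Set (α → ℝ) := Set.Icc 0 (fun b => w b / p) ∩ {q | ∑ b, q b = 1} with hD
  set Φ : (α → ℝ) → (β → ℝ) := fun q => ∑ b, q b • x b with hΦ
  have hcpt : IsCompact (Φ '' D) := by
    refine (isCompact_Icc.inter_right (isClosed_eq ?_ continuous_const)).image ?_
    · fun_prop
    · fun_prop
  have hconv : Convex ℝ (Φ '' D) := by
    have hD' : Convex ℝ D := by
      refine (convex_Icc _ _).inter ?_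
      intro u hu v hv s t hs ht hst
      simp only [Set.mem_ofPred_eq] at hu hv ⊢
      simp [sum_add_distrib, ← mul_sum, hu, hv, hst]
    intro u hu v hv s t hs ht hst
    obtain ⟨qu, hqu, rfl⟩ := hu
    obtain ⟨qv, hqv, rfl⟩ := hv
    refine ⟨s • qu + t • qv, hD' hqu hqv hs ht hst, ?_⟩
    simp [hΦ, add_smul, sum_add_distrib, smul_smul, Finset.smul_sum]
  by_cases hint : ((Φ '' D) ∩ Metric.closedBall (x a) ε).Nonempty
  · obtain ⟨_, ⟨q, hq, rfl⟩, hball⟩ := hint
    refine ⟨q, ⟨fun b => hq.1.1 b, hq.2⟩, fun b => hq.1.2 b, ?_⟩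
    rwa [mem_closedBall_iff_norm] at hball
  exfalso
  obtain ⟨f, u, v, hfu, huv, hfv⟩ := geometric_hahn_banach_compact_closed hconv hcpt
    (convex_closedBall (x a) ε) Metric.isClosed_closedBall
    (Set.disjoint_iff_inter_eq_empty.2 (Set.not_nonempty_iff_eq_empty.1 hint))
  set g : β → ℝ := fun c => f (Pi.single c 1) with hg
  have hf : ∀ z : β → ℝ, f z = g ⬝ᵥ z := by
    intro z
    conv_lhs => rw [pi_eq_sum_univ' z]
    simp [dotProduct, hg, mul_comm]
  set G := ∑ c, |g c| with hG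
  have hG0 : 0 ≤ G := sum_nonneg fun c _ => abs_nonneg _
  set zs : β → ℝ := fun c => x a c - ε * SignType.sign (g c) with hzs
  have hzs_mem : zs ∈ Metric.closedBall (x a) ε := by
    rw [mem_closedBall_iff_norm, pi_norm_le_iff_of_nonneg hε]
    intro c
    simp only [hzs, Pi.sub_apply, sub_sub_cancel_left, norm_neg, Real.norm_eq_abs, abs_mul,
      abs_of_nonneg hε]
    refine mul_le_of_le_one_right hε ?_
    rcases lt_trichotomy (g c) 0 with h | h | h <;> simp [h]
  have hval : g ⬝ᵥ zs = g ⬝ᵥ x a - ε * G := by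
    simp only [dotProduct, hzs, hG, mul_sum, ← sum_sub_distrib]
    refine sum_congr rfl fun c _ => ?_
    rw [← self_mul_sign (g c)]; ring
  have hv := hfv zs hzs_mem
  rw [hf, hval] at hv
  -- the normalised functional
  rcases eq_or_lt_of_le hG0 with hG1 | hG1
  · have hz : ∀ c, g c = 0 := fun c => abs_eq_zero.1
      ((sum_eq_zero_iff_of_nonneg fun c _ => abs_nonneg (g c)).1 hG1.symm c (mem_univ c))
    have h1 := hsoft 0 (by simp)
    simp [hε] at h1
    set W := ∑ b, w b with hW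
    have hW0 : 0 < W := hp.trans h1
    have hmem : Φ (fun b => w b / W) ∈ Φ '' D := by
      refine ⟨_, ⟨⟨fun b => ?_, fun b => ?_⟩, ?_⟩, rfl⟩
      · exact div_nonneg (hw b) hW0.le
      · exact div_le_div_of_nonneg_left (hw b) hp h1.le
      · simp [← sum_div, ← hW, hW0.ne']
    have := hfu _ hmem
    rw [hf] at this
    simp [dotProduct, hz, ← hG1] at this hv
    linarith
  set y : β → ℝ := fun c => g c / G with hy
  have hy1 : ∑ c, |y c| ≤ 1 := by
    simp [hy, abs_div, ← sum_div, ← hG, abs_of_pos hG1, hG1.ne']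
  have h1 := hsoft y hy1
  set W := ∑ b, (if y ⬝ᵥ x a - ε ≤ y ⬝ᵥ x b then w b else 0) with hW
  have hW0 : 0 < W := hp.trans h1
  set q : α → ℝ := fun b => (if y ⬝ᵥ x a - ε ≤ y ⬝ᵥ x b then w b else 0) / W with hqdef
  have hq0 : ∀ b, 0 ≤ q b := fun b => by
    refine div_nonneg ?_ hW0.le
    split_ifs
    · exact hw b
    · exact le_rfl
  have hqsum : ∑ b, q b = 1 := by simp only [hqdef, ← sum_div, ← hW, div_self hW0.ne']
  have hmem : Φ q ∈ Φ '' D := by
    refine ⟨q, ⟨⟨hq0, fun b => ?_⟩, hqsum⟩, rfl⟩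
    refine le_trans ?_ (div_le_div_of_nonneg_left (hw b) hp h1.le)
    simp only [hqdef]
    gcongr
    split_ifs
    · exact le_rfl
    · exact hw b
  have h2 := hfu _ hmem
  have hgy : ∀ z, g ⬝ᵥ z = G * (y ⬝ᵥ z) := fun z => by
    simp only [dotProduct, hy, mul_sum]
    exact sum_congr rfl fun c _ => by field_simp
  have h3 : y ⬝ᵥ x a - ε ≤ y ⬝ᵥ Φ q := by
    simp only [hΦ, dotProduct_sum, dotProduct_smul, smul_eq_mul]
    calc y ⬝ᵥ x a - ε = ∑ b, q b * (y ⬝ᵥ x a - ε) := by rw [← sum_mul, hqsum, one_mul]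
      _ ≤ _ := sum_le_sum fun b _ => by
          simp only [hqdef]
          split_ifs with h
          · exact mul_le_mul_of_nonneg_left h (div_nonneg (hw b) hW0.le)
          · simp
  rw [hf, hgy] at h2
  rw [hgy] at hv
  nlinarith [mul_le_mul_of_nonneg_left h3 hG1.le]

theorem packing_of_hard (x : α → β → ℝ) (w : α → ℝ) (hw : ∀ a, 0 ≤ w a) {p ε : ℝ}
    (hε : 0 < ε) (hx : ∀ a c, |x a c| ≤ 2)
    (hhard : ∀ a, w a ≠ 0 → ∃ y : β → ℝ, ∑ c, |y c| ≤ 1 ∧
      ∑ b, (if y ⬝ᵥ x a - ε ≤ y ⬝ᵥ x b then w b else 0) ≤ p) :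
    ∃ Y : Finset (β → ℝ), (∀ y ∈ Y, ∑ c, |y c| ≤ 1) ∧
      (∀ y ∈ Y, ∀ y' ∈ Y, y ≠ y' → ∃ a, ε / 2 ≤ |y ⬝ᵥ x a - y' ⬝ᵥ x a|) ∧
      ∑ a, w a ≤ (Nat.floor (8 / ε) + 1 : ℕ) * (Y.card * p) := by
  classical
  choose! y hy1 hy2 using hhard
  set P := univ.filter fun a => w a ≠ 0 with hP
  set bin : α → ℕ := fun a => Nat.floor ((y a ⬝ᵥ x a + 2) / (ε / 2)) with hbin
  have hval : ∀ a ∈ P, |y a ⬝ᵥ x a| ≤ 2 := by
    intro a ha
    refine (abs_sum_le_sum_abs _ _).trans ?_
    calc ∑ c, |y a c * x a c| ≤ ∑ c, |y a c| * 2 := sum_le_sum fun c _ => by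
          rw [abs_mul]; exact mul_le_mul_of_nonneg_left (hx a c) (abs_nonneg _)
      _ = (∑ c, |y a c|) * 2 := by rw [sum_mul]
      _ ≤ 2 := by nlinarith [hy1 a (mem_filter.1 ha).2]
  set B := range (Nat.floor (8 / ε) + 1) with hB
  have hmaps : ∀ a ∈ P, bin a ∈ B := by
    intro a ha
    have := abs_le.1 (hval a ha)
    rw [hB, mem_range, Nat.lt_succ_iff]
    refine Nat.floor_le_floor ?_
    rw [div_le_div_iff₀ (by positivity) hε]
    nlinarith
  obtain ⟨b0, hb0, hbig⟩ := exists_le_of_sum_le (s := B) ⟨0, by simp [hB]⟩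
    (f := fun _ => (∑ a, w a) / B.card) (g := fun b => ∑ a ∈ P.filter (fun a => bin a = b), w a) (by
      have hB0 : (B.card : ℝ) ≠ 0 := by simp [hB]; positivity
      rw [sum_const, nsmul_eq_mul, mul_div_cancel₀ _ hB0,
        sum_fiberwise_of_maps_to hmaps, hP, sum_filter_ne_zero])
  set R := P.filter fun a => bin a = b0 with hR
  set cand := R.powerset.filter fun S => ∀ s ∈ S, ∀ s' ∈ S, s ≠ s' →
    ∃ a, ε / 2 ≤ |y s ⬝ᵥ x a - y s' ⬝ᵥ x a| with hcand
  obtain ⟨S, hS, hmax⟩ := cand.exists_max_image Finset.card ⟨∅, by simp [hcand]⟩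
  rw [hcand, mem_filter, mem_powerset] at hS
  have hcover : ∀ a ∈ R, ∃ s ∈ S, y s ⬝ᵥ x s - ε ≤ y s ⬝ᵥ x a := by
    intro a ha
    have key : ∃ s ∈ S, |y a ⬝ᵥ x a - y s ⬝ᵥ x a| < ε / 2 := by
      by_contra hno
      push Not at hno
      have haS : a ∉ S := fun h => by have := hno a h; simp at this; linarith
      have hmem : insert a S ∈ cand := by
        rw [hcand, mem_filter, mem_powerset]
        refine ⟨insert_subset ha hS.1, fun s hs s' hs' hne => ?_⟩
        rcases mem_insert.1 hs with rfl | hs1 <;> rcases mem_insert.1 hs' with rfl | hs2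
        · exact absurd rfl hne
        · exact ⟨_, hno s' hs2⟩
        · exact ⟨_, by rw [abs_sub_comm]; exact hno s hs1⟩
        · exact hS.2 s hs1 s' hs2 hne
      have := hmax _ hmem
      rw [card_insert_of_notMem haS] at this
      omega
    obtain ⟨s, hs, hlt⟩ := key
    refine ⟨s, hs, ?_⟩
    have e : bin a = bin s := by rw [(mem_filter.1 ha).2, (mem_filter.1 (hS.1 hs)).2]
    have h1 := abs_le.1 (hval a (mem_filter.1 ha).1)
    have h2 := abs_le.1 (hval s (mem_filter.1 (hS.1 hs)).1)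
    have f1 := Nat.floor_le (div_nonneg (by linarith : (0 : ℝ) ≤ y a ⬝ᵥ x a + 2)
      (by positivity : 0 ≤ ε / 2))
    have f2 := Nat.lt_floor_add_one ((y s ⬝ᵥ x s + 2) / (ε / 2))
    have f1' := Nat.floor_le (div_nonneg (by linarith : (0 : ℝ) ≤ y s ⬝ᵥ x s + 2)
      (by positivity : 0 ≤ ε / 2))
    have f2' := Nat.lt_floor_add_one ((y a ⬝ᵥ x a + 2) / (ε / 2))
    simp only [hbin] at e
    rw [e] at f1 f2'
    have : (y s ⬝ᵥ x s + 2) / (ε / 2) < (y a ⬝ᵥ x a + 2) / (ε / 2) + 1 := by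
      linarith
    rw [div_add_one (by positivity), div_lt_div_iff_of_pos_right (by positivity)] at this
    have := abs_lt.1 hlt
    linarith
  refine ⟨S.image y, fun v hv => ?_, fun v hv v' hv' hne => ?_, ?_⟩
  · obtain ⟨s, hs, rfl⟩ := mem_image.1 hv
    exact hy1 s (mem_filter.1 (mem_filter.1 (hS.1 hs)).1).2
  · obtain ⟨s, hs, rfl⟩ := mem_image.1 hv
    obtain ⟨s', hs', rfl⟩ := mem_image.1 hv'
    exact hS.2 s hs s' hs' fun h => hne (by rw [h])
  · have hcardS : (S.image y).card = S.card := card_image_of_injOn fun s hs s' hs' he => by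
      by_contra hne
      obtain ⟨a, ha⟩ := hS.2 s hs s' hs' hne
      rw [he] at ha; simp at ha; linarith
    have hle : ∑ a ∈ R, w a ≤ S.card * p := by
      calc ∑ a ∈ R, w a ≤ ∑ a ∈ R, ∑ s ∈ S, (if y s ⬝ᵥ x s - ε ≤ y s ⬝ᵥ x a then w a else 0) := by
            refine sum_le_sum fun a ha => ?_
            obtain ⟨s, hs, hsa⟩ := hcover a ha
            refine le_trans (le_of_eq ?_) (single_le_sum (fun t _ => ?_) hs)
            · simp [hsa]
            · split_ifs <;> simp [hw]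
        _ = ∑ s ∈ S, ∑ a ∈ R, (if y s ⬝ᵥ x s - ε ≤ y s ⬝ᵥ x a then w a else 0) := sum_comm
        _ ≤ ∑ s ∈ S, p := by
            refine sum_le_sum fun s hs => le_trans ?_
              (hy2 s (mem_filter.1 (mem_filter.1 (hS.1 hs)).1).2)
            refine sum_le_univ_sum_of_nonneg fun a => ?_
            split_ifs <;> simp [hw]
        _ = S.card * p := by simp
    rw [hcardS]
    have := hbig.trans hle
    rw [div_le_iff₀ (by simp [hB]; positivity)] at this
    calc ∑ a, w a ≤ S.card * p * B.card := this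
      _ = _ := by simp [hB]; ring

end Vale.Agent.P126

end
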