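import Mathlib
import Vale.Agent.P126.Hard

/-!
# The bounded-scale inequality: separated points in a hull force a packing of tests
-/

noncomputable section

open Finset Real
open scoped BigOperators

namespace Vale.Agent.P126

variable {α β ι : Type*} [Fintype α] [Fintype β] [Fintype ι]

/-- The mean of the rows under a weight vector. -/
def rowMean (z : ι → β → ℝ) (p : ι → ℝ) : β → ℝ := ∑ i, p i • z i

theorem rowMean_apply (z : ι → β → ℝ) (p : ι → ℝ) (c : β) :
    rowMean z p c = ∑ i, p i * z i c := by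
  simp [rowMean, Finset.sum_apply]

/-- A flat distribution on the points admits cheap approximate representations. -/
def Cheap (z : ι → β → ℝ) (x : α → β → ℝ) (u c ρ : ℝ) : Prop :=
  ∃ (μ : α → ℝ) (ν : ι → ℝ) (lam : α → ι → ℝ), IsProb μ ∧ (∀ a, μ a ≤ exp (-u)) ∧ IsProb ν ∧
    (∀ a, μ a ≠ 0 → IsProb (lam a) ∧ Dominated (lam a) ν ∧ ‖rowMean z (lam a) - x a‖ ≤ ρ) ∧
    ∑ a, μ a * relEnt (lam a) ν ≤ c

theorem cheap_lower (z : ι → β → ℝ) (x : α → β → ℝ) (hz : ∀ i c, |z i c| ≤ 1) {σ r ρ u c : ℝ}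
    (hr0 : 0 < r) (hr1 : r ≤ 1) (hρ : ρ ≤ 2 * r) (hσ : 6 * r < σ) (hu : 0 ≤ u) (k : ℕ)
    (hk : 2 * (Fintype.card β : ℝ) * exp (-(k * r ^ 2 / 16)) ≤ 1 / 4)
    (hsep : ∀ a b, a ≠ b → ∃ c, σ ≤ |x a c - x b c|) (h : Cheap z x u c ρ) :
    3 / 4 * u - 1 ≤ k * c := by
  classical
  obtain ⟨μ, ν, lam, hμ, hatom, hν, hrep, hcost⟩ := h
  set A : α → Finset (Fin k → ι) := fun a => univ.filter fun S =>
    ∀ c, |∑ j, (z (S j) c - x a c)| < k * (3 * r) with hA
  refine le_trans (decode_lower k hμ hu hatom hν A (fun a b hab => ?_) (fun a ha => ?_))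
    (mul_le_mul_of_nonneg_left hcost k.cast_nonneg)
  · rw [Finset.disjoint_left]
    intro S hS hS'
    simp only [hA, mem_filter, mem_univ, true_and] at hS hS'
    obtain ⟨c, hc⟩ := hsep a b hab
    have h1 := abs_lt.1 (hS c)
    have h2 := abs_lt.1 (hS' c)
    simp only [sum_sub_distrib, sum_const, card_univ, Fintype.card_fin, nsmul_eq_mul] at h1 h2
    have hk0 : (0 : ℝ) < k := by
      rcases Nat.eq_zero_or_pos k with h | h
      · subst h; simp at h1
      · exact_mod_cast h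
    have : (k : ℝ) * |x a c - x b c| < k * (6 * r) := by
      rw [← abs_of_pos hk0, ← abs_mul, abs_of_pos hk0, abs_lt]
      constructor <;> nlinarith
    nlinarith [lt_of_mul_lt_mul_left this hk0.le]
  · obtain ⟨hl, hd, hdist⟩ := hrep a ha
    refine ⟨hl, hd, (concentration k hl hz hr0 hr1 hk).trans ?_⟩
    refine sum_le_sum_of_subset_of_nonneg ?_ fun S _ _ => prod_nonneg fun j _ => hl.1 _
    intro S hS
    simp only [hA, mem_filter, mem_univ, true_and] at hS ⊢
    intro c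
    have h1 := abs_lt.1 (hS c)
    have h2 : |rowMean z (lam a) c - x a c| ≤ 2 * r := by
      have := (norm_le_pi_norm (rowMean z (lam a) - x a) c).trans (hdist.trans hρ)
      simpa [Real.norm_eq_abs] using this
    rw [rowMean_apply] at h2
    have h3 := abs_le.1 h2
    simp only [sum_sub_distrib, sum_const, card_univ, Fintype.card_fin, nsmul_eq_mul] at h1 ⊢
    have hk0 : (0 : ℝ) ≤ k := k.cast_nonneg
    rw [abs_lt]
    constructor <;> nlinarith [mul_le_mul_of_nonneg_left h3.1 hk0,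
      mul_le_mul_of_nonneg_left h3.2 hk0]

theorem relEnt_le_log_card {p : ι → ℝ} (hp : IsProb p) :
    relEnt p (fun _ => 1 / (Fintype.card ι : ℝ)) ≤ log (Fintype.card ι) := by
  calc relEnt p (fun _ => 1 / (Fintype.card ι : ℝ))
      ≤ ∑ i, p i * log (Fintype.card ι) := ?_
    _ = _ := by rw [← sum_mul, hp.2, one_mul]
  refine sum_le_sum fun i _ => ?_
  rcases eq_or_lt_of_le (hp.1 i) with h | h
  · simp [← h]
  refine mul_le_mul_of_nonneg_left ?_ (hp.1 i)
  rw [div_div_eq_mul_div, div_one]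
  have hp1 : p i ≤ 1 := hp.2 ▸ single_le_sum (fun j _ => hp.1 j) (mem_univ i)
  have hn : 0 < (Fintype.card ι : ℝ) := by exact_mod_cast Fintype.card_pos_iff.2 ⟨i⟩
  refine log_le_log (mul_pos h hn) ?_
  exact mul_le_of_le_one_left hn.le hp1

theorem relEnt_mixture {q : α → ℝ} (hq : IsProb q) {lam : α → ι → ℝ} {ν : ι → ℝ}
    (hlam : ∀ a, q a ≠ 0 → IsProb (lam a) ∧ Dominated (lam a) ν) :
    IsProb (fun i => ∑ a, q a * lam a i) ∧ Dominated (fun i => ∑ a, q a * lam a i) ν ∧
      (∀ a, q a ≠ 0 → Dominated (lam a) (fun i => ∑ a, q a * lam a i)) ∧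
      ∑ a, q a * relEnt (lam a) ν = relEnt (fun i => ∑ a, q a * lam a i) ν
        + ∑ a, q a * relEnt (lam a) (fun i => ∑ a, q a * lam a i) := by
  have hnn : ∀ a i, 0 ≤ q a * lam a i := fun a i => by
    by_cases h : q a = 0
    · simp [h]
    · exact mul_nonneg (hq.1 a) ((hlam a h).1.1 i)
  have hdom : ∀ a, q a ≠ 0 → Dominated (lam a) (fun i => ∑ a, q a * lam a i) := fun a ha i hi =>
    (mul_eq_zero.1 ((sum_eq_zero_iff_of_nonneg fun b _ => hnn b i).1 hi a (mem_univ a))).resolve_left ha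
  refine ⟨⟨fun i => sum_nonneg fun a _ => hnn a i, ?_⟩, fun i hi => ?_, hdom, ?_⟩
  · rw [sum_comm, ← hq.2]
    refine sum_congr rfl fun a _ => ?_
    rw [← mul_sum]
    by_cases h : q a = 0
    · simp [h]
    · rw [(hlam a h).1.2, mul_one]
  · refine sum_eq_zero fun a _ => ?_
    by_cases h : q a = 0
    · simp [h]
    · rw [(hlam a h).2 i hi, mul_zero]
  · simp only [relEnt, mul_sum, sum_mul]
    rw [Finset.sum_comm, Finset.sum_comm (f := fun a i => q a * (lam a i * log (lam a i / ∑ b, q b * lam b i))),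
      ← sum_add_distrib]
    refine sum_congr rfl fun i _ => ?_
    rw [← sum_add_distrib]
    refine sum_congr rfl fun a _ => ?_
    by_cases h0 : q a * lam a i = 0
    · rcases mul_eq_zero.1 h0 with h | h <;> simp [h]
    have hl : lam a i ≠ 0 := fun h => h0 (by simp [h])
    have hqa : q a ≠ 0 := fun h => h0 (by simp [h])
    have hν : ν i ≠ 0 := fun h => hl ((hlam a hqa).2 i h)
    have hm : ∑ b, q b * lam b i ≠ 0 := fun h => hl (hdom a hqa i h)
    rw [log_div hl hν, log_div hm hν, log_div hl hm]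
    ring

theorem packing_of_jump (z : ι → β → ℝ) (x : α → β → ℝ) (hx : ∀ a c, |x a c| ≤ 2)
    {u Δ c γ ρ δ ε : ℝ} (hc0' : 0 < c) (hγ0 : 0 < γ) (hγ1 : γ ≤ 1) (hδ0 : 0 < δ)
    (hεdef : ε = γ * δ / 40) (h44 : 44 / γ ≤ exp (Δ / 2))
    (hj : Cheap z x u c ρ) (hj' : ¬Cheap z x (u - Δ) (γ * c) (ρ + δ)) :
    ∃ Y : Finset (β → ℝ), (∀ y ∈ Y, ∑ c, |y c| ≤ 1) ∧
      (∀ y ∈ Y, ∀ y' ∈ Y, y ≠ y' → ∃ a, ε / 2 ≤ |y ⬝ᵥ x a - y' ⬝ᵥ x a|) ∧
      1 ≤ ((Nat.floor (8 / ε) + 1 : ℕ) : ℝ) * (Y.card * exp (-(Δ / 2))) := by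
  classical
  have hε0 : 0 < ε := by rw [hεdef]; positivity
  obtain ⟨μ, ν, lam, hμ, hatom, hν, hrep, hcost⟩ := hj
  set β' := 5 * c / δ with hβ'
  have hβ0 : 0 < β' := by positivity
  set val : α → (ι → ℝ) → ℝ := fun a p => relEnt p ν + β' * max (‖rowMean z p - x a‖ - ρ) 0
    with hval
  set adm : Set (ι → ℝ) := {p | IsProb p ∧ Dominated p ν} with hadm
  set P : α → ℝ := fun a => sInf (val a '' adm) with hP
  have hvnn : ∀ a p, p ∈ adm → 0 ≤ val a p := fun a p hp => by
    have := relEnt_nonneg hp.1 hν hp.2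
    have := mul_nonneg hβ0.le (le_max_right (‖rowMean z p - x a‖ - ρ) 0)
    simp only [hval]; linarith
  have hbdd : ∀ a, BddBelow (val a '' adm) := fun a => ⟨0, by
    rintro _ ⟨p, hp, rfl⟩; exact hvnn a p hp⟩
  have hPle : ∀ a p, p ∈ adm → P a ≤ val a p := fun a p hp => csInf_le (hbdd a) ⟨p, hp, rfl⟩
  have hne : adm.Nonempty := ⟨ν, hν, fun _ h => h⟩
  have hPnn : ∀ a, 0 ≤ P a := fun a => le_csInf (hne.image _) (by
    rintro _ ⟨p, hp, rfl⟩; exact hvnn a p hp)
  have hnear : ∀ a, ∃ p ∈ adm, val a p ≤ P a + γ * c / 16 := fun a => by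
    obtain ⟨_, ⟨p, hp, rfl⟩, hlt⟩ := exists_lt_of_csInf_lt (hne.image (val a))
      (lt_add_of_pos_right (P a) (by positivity : 0 < γ * c / 16))
    exact ⟨p, hp, hlt.le⟩
  choose popt hpopt hpval using hnear
  set R0 := univ.filter fun a => μ a ≠ 0 ∧ relEnt (lam a) ν ≤ 4 * c with hR0
  have hmassR0 : 3 / 4 ≤ ∑ a ∈ R0, μ a := by
    have htot := hμ.2
    rw [← sum_filter_add_sum_filter_not univ
      (fun a => μ a ≠ 0 ∧ relEnt (lam a) ν ≤ 4 * c)] at htot
    have : (4 * c) * ∑ a ∈ univ.filter (fun a => ¬(μ a ≠ 0 ∧ relEnt (lam a) ν ≤ 4 * c)), μ a ≤ c := by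
      refine le_trans ?_ hcost
      rw [mul_sum]
      refine le_trans (sum_le_sum fun a ha => ?_) (sum_le_univ_sum_of_nonneg fun a => ?_)
      · simp only [mem_filter, mem_univ, true_and, not_and, not_le] at ha
        by_cases h0 : μ a = 0
        · simp [h0]
        · rw [mul_comm]; exact mul_le_mul_of_nonneg_left (ha h0).le (hμ.1 a)
      · by_cases h0 : μ a = 0
        · simp [h0]
        · exact mul_nonneg (hμ.1 a) (relEnt_nonneg (hrep a h0).1 hν (hrep a h0).2.1)
    rw [← hR0] at htot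
    nlinarith
  have hP4 : ∀ a ∈ R0, P a ≤ 4 * c := by
    intro a ha
    simp only [hR0, mem_filter, mem_univ, true_and] at ha
    obtain ⟨hl, hd, hdist⟩ := hrep a ha.1
    refine (hPle a _ ⟨hl, hd⟩).trans ?_
    simp only [hval, max_eq_right (sub_nonpos.2 hdist), mul_zero, add_zero]
    exact ha.2
  set bin : α → ℕ := fun a => Nat.floor (P a / (γ * c / 8)) with hbin
  set B := range (Nat.floor (32 / γ) + 1) with hB
  have hmaps : ∀ a ∈ R0, bin a ∈ B := fun a ha => by
    rw [hB, mem_range, Nat.lt_succ_iff]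
    refine Nat.floor_le_floor ?_
    rw [div_le_div_iff₀ (by positivity) hγ0]
    nlinarith [mul_le_mul_of_nonneg_left (hP4 a ha) hγ0.le]
  have hBcard : (B.card : ℝ) ≤ 33 / γ := by
    simp only [hB, card_range, Nat.cast_add, Nat.cast_one]
    have := Nat.floor_le (by positivity : (0 : ℝ) ≤ 32 / γ)
    have h1 : 1 ≤ 1 / γ := by rw [le_div_iff₀ hγ0]; linarith
    calc _ ≤ 32 / γ + 1 / γ := by linarith
      _ = _ := by ring
  have hBpos : (0 : ℝ) < B.card := by simp [hB]; positivity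
  obtain ⟨b0, -, hbig⟩ := exists_le_of_sum_le (s := B) ⟨0, by simp [hB]⟩
    (f := fun _ => (∑ a ∈ R0, μ a) / B.card)
    (g := fun b => ∑ a ∈ R0.filter (fun a => bin a = b), μ a) (by
      rw [sum_const, nsmul_eq_mul, mul_div_cancel₀ _ hBpos.ne', sum_fiberwise_of_maps_to hmaps])
  set R := R0.filter fun a => bin a = b0 with hR
  set W := ∑ a ∈ R, μ a with hW
  have hWlow : γ / 44 ≤ W := by
    refine le_trans ?_ hbig
    rw [le_div_iff₀ hBpos]
    calc γ / 44 * B.card ≤ γ / 44 * (33 / γ) := mul_le_mul_of_nonneg_left hBcard (by positivity)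
      _ = 3 / 4 := by field_simp; norm_num
      _ ≤ _ := hmassR0
  have hW0 : 0 < W := lt_of_lt_of_le (by positivity) hWlow
  set w : α → ℝ := fun a => if a ∈ R then μ a / W else 0 with hw
  have hwnn : ∀ a, 0 ≤ w a := fun a => by
    simp only [hw]; split_ifs
    · exact div_nonneg (hμ.1 a) hW0.le
    · exact le_rfl
  have hwsum : ∑ a, w a = 1 := by
    simp only [hw, sum_ite_mem, univ_inter, ← sum_div, ← hW, div_self hW0.ne']
  have hhard : ∀ a, w a ≠ 0 → ∃ y : β → ℝ, ∑ c, |y c| ≤ 1 ∧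
      ∑ b, (if y ⬝ᵥ x a - ε ≤ y ⬝ᵥ x b then w b else 0) ≤ exp (-(Δ / 2)) := by
    intro a ha
    by_contra hno
    push Not at hno
    obtain ⟨q, hq, hqw, hmean⟩ := exists_cluster x w hwnn a (exp_pos _) hε0.le hno
    have hqR : ∀ b, q b ≠ 0 → b ∈ R := fun b hb => by
      by_contra hbR
      exact hb (le_antisymm (by simpa [hw, hbR] using hqw b) (hq.1 b))
    have haR : a ∈ R := by by_contra hbR; exact ha (by simp [hw, hbR])
    obtain ⟨hbar, hbard, hdom, hid⟩ := relEnt_mixture hq (lam := popt) (ν := ν)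
      fun b _ => hpopt b
    set lbar : ι → ℝ := fun i => ∑ b, q b * popt b i with hlbar
    have hqatom : ∀ b, q b ≤ exp (-(u - Δ)) := by
      intro b
      have hwb : w b ≤ exp (-u) * (44 / γ) := by
        simp only [hw]
        split_ifs
        · calc μ b / W ≤ exp (-u) / W := div_le_div_of_nonneg_right (hatom b) hW0.le
            _ ≤ exp (-u) / (γ / 44) := div_le_div_of_nonneg_left (exp_pos _).le (by positivity) hWlow
            _ = _ := by field_simp
        · positivity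
      refine (hqw b).trans ((div_le_div_of_nonneg_right hwb (exp_pos _).le).trans ?_)
      rw [div_le_iff₀ (exp_pos _), ← exp_add]
      calc exp (-u) * (44 / γ) ≤ exp (-u) * exp (Δ / 2) :=
            mul_le_mul_of_nonneg_left h44 (exp_pos _).le
        _ = _ := by rw [← exp_add]; congr 1; ring
    have hPR : ∀ b ∈ R, P b ≤ 4 * c := fun b hb => hP4 b (mem_filter.1 hb).1
    have hdistopt : ∀ b ∈ R, ‖rowMean z (popt b) - x b‖ ≤ ρ + δ := by
      intro b hb
      have h1 := hpval b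
      have h2 := relEnt_nonneg (hpopt b).1 hν (hpopt b).2
      simp only [hval] at h1
      have h3 : β' * max (‖rowMean z (popt b) - x b‖ - ρ) 0 ≤ β' * δ := by
        have : β' * δ = 5 * c := by rw [hβ']; field_simp
        nlinarith [hPR b hb]
      have := (le_of_mul_le_mul_left h3 hβ0)
      linarith [le_max_left (‖rowMean z (popt b) - x b‖ - ρ) 0]
    have hgain : γ * c < ∑ b, q b * relEnt (popt b) lbar := by
      by_contra hle
      push Not at hle
      exact hj' ⟨q, lbar, popt, hq, hqatom, hbar,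
        fun b hb => ⟨(hpopt b).1, hdom b hb, hdistopt b (hqR b hb)⟩, hle⟩
    have hdist : ‖rowMean z lbar - x a‖ - ρ
        ≤ ∑ b, q b * max (‖rowMean z (popt b) - x b‖ - ρ) 0 + ε := by
      have e : rowMean z lbar = ∑ b, q b • rowMean z (popt b) := by
        simp only [rowMean, hlbar, sum_smul, smul_sum, smul_smul]
        exact sum_comm
      have h1 : ‖rowMean z lbar - x a‖ ≤ ‖∑ b, q b • (rowMean z (popt b) - x b)‖
          + ‖∑ b, q b • x b - x a‖ := by
        refine le_trans (le_of_eq ?_) (norm_add_le _ _)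
        rw [e]
        simp only [smul_sub, sum_sub_distrib, sub_add_sub_cancel]
      have h2 : ‖∑ b, q b • (rowMean z (popt b) - x b)‖
          ≤ ∑ b, q b * (max (‖rowMean z (popt b) - x b‖ - ρ) 0 + ρ) := by
        refine (norm_sum_le _ _).trans (sum_le_sum fun b _ => ?_)
        rw [norm_smul, Real.norm_eq_abs, abs_of_nonneg (hq.1 b)]
        exact mul_le_mul_of_nonneg_left
          (by linarith [le_max_left (‖rowMean z (popt b) - x b‖ - ρ) 0]) (hq.1 b)
      simp only [mul_add, sum_add_distrib, ← sum_mul, hq.2, one_mul] at h2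
      linarith
    have hmax : max (‖rowMean z lbar - x a‖ - ρ) 0
        ≤ ∑ b, q b * max (‖rowMean z (popt b) - x b‖ - ρ) 0 + ε :=
      max_le hdist (add_nonneg (sum_nonneg fun b _ => mul_nonneg (hq.1 b) (le_max_right _ _)) hε0.le)
    have h1 : P a ≤ relEnt lbar ν + β' * max (‖rowMean z lbar - x a‖ - ρ) 0 :=
      hPle a lbar ⟨hbar, hbard⟩
    have h2 : ∑ b, q b * val b (popt b) ≤ P a + γ * c / 8 + γ * c / 16 := by
      calc ∑ b, q b * val b (popt b) ≤ ∑ b, q b * (P a + γ * c / 8 + γ * c / 16) := by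
            refine sum_le_sum fun b _ => ?_
            by_cases hb : q b = 0
            · simp [hb]
            refine mul_le_mul_of_nonneg_left ((hpval b).trans ?_) (hq.1 b)
            have e : bin b = bin a := by rw [(mem_filter.1 (hqR b hb)).2, (mem_filter.1 haR).2]
            simp only [hbin] at e
            have hw0 : 0 < γ * c / 8 := by positivity
            have f1 := Nat.floor_le (div_nonneg (hPnn a) hw0.le)
            have f2 := Nat.lt_floor_add_one (P b / (γ * c / 8))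
            rw [e] at f2
            have : P b / (γ * c / 8) < P a / (γ * c / 8) + 1 := by linarith
            rw [div_add_one hw0.ne', div_lt_div_iff_of_pos_right hw0] at this
            linarith
        _ = _ := by rw [← sum_mul, hq.2, one_mul]
    simp only [hval, mul_add, sum_add_distrib, mul_left_comm _ β', ← mul_sum] at h2
    have h3 := mul_le_mul_of_nonneg_left hmax hβ0.le
    have h4 : β' * ε = γ * c / 8 := by
      rw [hβ', hεdef]; field_simp; ring
    rw [hid] at h2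
    nlinarith [mul_pos hγ0 hc0']
  obtain ⟨Y, hY1, hY2, hY3⟩ := packing_of_hard x w hwnn hε0 hx hhard
  rw [hwsum] at hY3
  exact ⟨Y, hY1, hY2, hY3⟩

theorem core (J : ℕ) (hJ : 1 ≤ J) (z : ι → β → ℝ) (x : α → β → ℝ) (hz : ∀ i c, |z i c| ≤ 1)
    (hx : ∀ a c, |x a c| ≤ 2) {σ : ℝ} (hσ0 : 0 < σ) (hσ1 : σ ≤ 1)
    (hsep : ∀ a b, a ≠ b → ∃ c, σ ≤ |x a c - x b c|)
    (hhull : ∀ a, ∃ p, IsProb p ∧ ‖rowMean z p - x a‖ ≤ σ / 40)
    (k : ℕ) (hk : 2 * (Fintype.card β : ℝ) * exp (-(k * (σ / 40) ^ 2 / 16)) ≤ 1 / 4)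
    {γ ε E : ℝ} (hγ0 : 0 < γ) (hγ1 : γ ≤ 1) (hE : 0 ≤ E)
    (hγ : (k : ℝ) * ((log (Fintype.card ι) + 1) * γ ^ J) ≤ 1 + E)
    (hε : ε = γ * σ / (1600 * J)) :
    ∃ Y : Finset (β → ℝ), (∀ y ∈ Y, ∑ c, |y c| ≤ 1) ∧
      (∀ y ∈ Y, ∀ y' ∈ Y, y ≠ y' → ∃ a, ε / 2 ≤ |y ⬝ᵥ x a - y' ⬝ᵥ x a|) ∧
      log (Fintype.card α) ≤ 24 * J * (log Y.card + log (2000 / ε)) + 4 * E := by
  classical
  have hJ0 : (0 : ℝ) < J := by exact_mod_cast hJ
  have hJ1 : (1 : ℝ) ≤ J := by exact_mod_cast hJ
  have hε0 : 0 < ε := by rw [hε]; positivity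
  have hεγ : ε ≤ γ / 1600 := by
    rw [hε, div_le_div_iff₀ (by positivity) (by norm_num)]
    nlinarith [mul_le_mul hσ1 (le_refl γ) hγ0.le zero_le_one]
  have hlogε : 5 ≤ log (2000 / ε) := by
    rw [le_log_iff_exp_le (by positivity)]
    have : exp 5 ≤ 2000 := by
      have h := exp_one_lt_d9
      have : exp 5 = exp 1 ^ 5 := by rw [← exp_nat_mul]; norm_num
      rw [this]
      exact (pow_le_pow_left₀ (exp_pos 1).le h.le 5).trans (by norm_num)
    exact this.trans (le_div_self (by norm_num) hε0 (by linarith [hγ1]))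
  set h := log (Fintype.card α : ℝ) with hh
  by_cases hsmall : h ≤ 4 * J * log (2000 / ε) + 8 + 4 * E
  · refine ⟨{0}, by simp, by simp, ?_⟩
    simp only [card_singleton, Nat.cast_one, log_one, zero_add]
    nlinarith [mul_le_mul_of_nonneg_left hlogε hJ0.le]
  push Not at hsmall
  have hh8 : 8 ≤ h := by nlinarith [mul_le_mul_of_nonneg_left hlogε hJ0.le]
  have hN : 0 < (Fintype.card α : ℝ) := by
    rcases Nat.eq_zero_or_pos (Fintype.card α) with h0 | h0
    · rw [hh, h0] at hh8; simp at hh8; linarith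
    · exact_mod_cast h0
  set r := σ / 40 with hr
  have hr0 : 0 < r := by positivity
  set Δ := h / (2 * J) with hΔ
  set c0 := log (Fintype.card ι : ℝ) + 1 with hc0
  have hc00 : 0 < c0 := by
    have : 0 ≤ log (Fintype.card ι : ℝ) := log_natCast_nonneg _
    linarith
  -- the initial stage is cheap and the last one is not
  have hfirst : Cheap z x (h - (0 : ℕ) * Δ) (c0 * γ ^ 0) (r * (1 + ((0 : ℕ) : ℝ) / J)) := by
    choose p hp hpd using hhull
    refine ⟨fun _ => 1 / (Fintype.card α : ℝ), fun _ => 1 / (Fintype.card ι : ℝ), p,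
      ⟨fun _ => by positivity, by simp [hN.ne']⟩, fun a => ?_, ?_, fun a _ => ⟨hp a, ?_, ?_⟩, ?_⟩
    · simp [hh, exp_neg, exp_log hN]
    · obtain ⟨a0⟩ : Nonempty α := Fintype.card_pos_iff.1 (by exact_mod_cast hN)
      have hn : (Fintype.card ι : ℝ) ≠ 0 := by
        intro h0
        have : IsEmpty ι := Fintype.card_eq_zero_iff.1 (by exact_mod_cast h0)
        simpa using (hp a0).2
      exact ⟨fun _ => by positivity, by simp [hn]⟩
    · intro i hi
      have : 0 < (Fintype.card ι : ℝ) := by exact_mod_cast Fintype.card_pos_iff.2 ⟨i⟩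
      simp [this.ne'] at hi
    · simpa using hpd a
    · calc ∑ a, 1 / (Fintype.card α : ℝ) * relEnt (p a) (fun _ => 1 / (Fintype.card ι : ℝ))
          ≤ ∑ _a : α, 1 / (Fintype.card α : ℝ) * log (Fintype.card ι) :=
            sum_le_sum fun a _ => mul_le_mul_of_nonneg_left (relEnt_le_log_card (hp a))
              (by positivity)
        _ ≤ _ := by simp [hN.ne', hc0]
  have hlast : ¬Cheap z x (h - (J : ℕ) * Δ) (c0 * γ ^ J) (r * (1 + (J : ℝ) / J)) := by
    intro hC
    have e : h - (J : ℕ) * Δ = h / 2 := by rw [hΔ]; field_simp; ring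
    rw [e, div_self hJ0.ne'] at hC
    have := cheap_lower (σ := σ) (r := r) z x hz hr0 (by linarith) (by linarith) (by linarith)
      (by linarith) k hk hsep hC
    nlinarith
  obtain ⟨j, hjJ, hj, hj'⟩ : ∃ j < J, Cheap z x (h - (j : ℕ) * Δ) (c0 * γ ^ j) (r * (1 + (j : ℝ) / J))
      ∧ ¬Cheap z x (h - (j + 1 : ℕ) * Δ) (c0 * γ ^ (j + 1)) (r * (1 + ((j + 1 : ℕ) : ℝ) / J)) := by
    by_contra hno
    push Not at hno
    have : ∀ j ≤ J, Cheap z x (h - (j : ℕ) * Δ) (c0 * γ ^ j) (r * (1 + (j : ℝ) / J)) := by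
      intro j
      induction j with
      | zero => exact fun _ => hfirst
      | succ j ih => exact fun hle => hno j (Nat.lt_of_succ_le hle) (ih (Nat.le_of_succ_le hle))
    exact hlast (this J le_rfl)
  set c := c0 * γ ^ j with hc
  set u := h - (j : ℕ) * Δ with hu
  set ρ := r * (1 + (j : ℝ) / J) with hρ
  set δ := r / J with hδ
  have hc0' : 0 < c := by positivity
  have hδ0 : 0 < δ := by positivity
  rw [show c0 * γ ^ (j + 1) = γ * c by rw [hc, pow_succ]; ring,
    show r * (1 + ((j + 1 : ℕ) : ℝ) / J) = ρ + δ by rw [hρ, hδ]; push_cast; ring,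
    show h - (j + 1 : ℕ) * Δ = u - Δ by rw [hu]; push_cast; ring] at hj'
  have h44 : 44 / γ ≤ exp (Δ / 2) := by
    have h1 : 44 / γ ≤ 2000 / ε := by
      rw [div_le_div_iff₀ hγ0 hε0]; nlinarith
    refine h1.trans ?_
    rw [← exp_log (by positivity : (0 : ℝ) < 2000 / ε)]
    refine exp_le_exp.2 ?_
    rw [hΔ, div_div, le_div_iff₀ (by positivity)]
    nlinarith
  obtain ⟨Y, hY1, hY2, hY3⟩ := packing_of_jump (ε := ε) z x hx hc0' hγ0 hγ1 hδ0
    (by rw [hε, hδ, hr]; field_simp; ring) h44 hj hj'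
  refine ⟨Y, hY1, hY2, ?_⟩
  have hY0 : 0 < Y.card := by
    rcases Nat.eq_zero_or_pos Y.card with h0 | h0
    · rw [h0] at hY3; simp at hY3; linarith
    · exact h0
  have hfl : ((Nat.floor (8 / ε) + 1 : ℕ) : ℝ) ≤ 2000 / ε := by
    push_cast
    have h1 := Nat.floor_le (by positivity : (0 : ℝ) ≤ 8 / ε)
    have h2 : 8 / ε + 1 ≤ 2000 / ε := by
      rw [div_add_one hε0.ne', div_le_div_iff_of_pos_right hε0]; linarith
    linarith
  have h5 : exp (Δ / 2) ≤ 2000 / ε * Y.card := by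
    have h6 : 1 ≤ 2000 / ε * (Y.card * exp (-(Δ / 2))) :=
      hY3.trans (mul_le_mul_of_nonneg_right hfl (by positivity))
    have := mul_le_mul_of_nonneg_right h6 (exp_pos (Δ / 2)).le
    rw [one_mul, mul_assoc (2000 / ε), mul_assoc, ← exp_add, neg_add_cancel, exp_zero, mul_one]
      at this
    exact this
  have h7 := log_le_log (exp_pos _) h5
  rw [log_exp, log_mul (by positivity) (by exact_mod_cast hY0.ne'), hΔ, div_div,
    div_le_iff₀ (by positivity)] at h7
  have : 0 ≤ log (Y.card : ℝ) := log_natCast_nonneg _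
  nlinarith [mul_nonneg hJ0.le this, mul_le_mul_of_nonneg_left hlogε hJ0.le]

end Vale.Agent.P126

end
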