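import Mathlib
import Vale.Agent.P126.Core
import Vale.Agent.P126.Basic

/-!
# One scale: separated points of a piece are controlled by a net of the dual body
-/

noncomputable section

open Finset Real
open scoped BigOperators Pointwise

namespace Vale.Agent.P126

variable {n : ℕ}

theorem combo_mem_polar {L : Set (Fin n → ℝ)} (hL : IsBody L) {ι : Type*} [Fintype ι]
    (q : ι → Fin n → ℝ) (hq : ∀ i, q i ∈ polar L) (y : ι → ℝ) (hy : ∑ i, |y i| ≤ 1) :
    ∑ i, y i • q i ∈ polar L := by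
  intro x hx
  rw [dotProduct_sum]
  calc ∑ i, x ⬝ᵥ (y i • q i) ≤ ∑ i, |y i| * 1 := sum_le_sum fun i _ => by
        rw [dotProduct_smul, smul_eq_mul]
        refine (le_abs_self _).trans ?_
        rw [abs_mul]
        exact mul_le_mul_of_nonneg_left (abs_dot_le hL hx (hq i)) (abs_nonneg _)
    _ ≤ 1 := by simpa using hy

/-- The threshold on the base `B` used for a chain of `J` steps. -/
def bigB (J : ℕ) : ℝ := 1000000 * J

theorem card_dual_ge {L : Set (Fin n → ℝ)} (hL : IsBody L) (Q : Finset (Fin n → ℝ))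
    {A : Set (Fin n → ℝ)} {τ B : ℝ} (hτ0 : 0 ≤ τ) (hτ : τ * (4 * B ^ 2) < 1) (hB : 1 ≤ B)
    (hQmax : ∀ Y : Finset (Fin n → ℝ), (∀ y ∈ Y, y ∈ polar L) →
      (∀ y ∈ Y, ∀ y' ∈ Y, y ≠ y' → ¬∀ x ∈ A, |x ⬝ᵥ y - x ⬝ᵥ y'| ≤ τ) → Y.card ≤ Q.card)
    {a g : Fin n → ℝ} (ha : a ∈ A) (hg : g ∈ polar L) (hsep : 1 / (4 * B) < |a ⬝ᵥ g|) :
    B ≤ Q.card := by
  classical
  set m := Nat.floor B with hm
  have hm1 : 1 ≤ m := Nat.one_le_floor_iff _ |>.2 hB
  have hm0 : (0 : ℝ) < m := by exact_mod_cast hm1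
  have hmB : (m : ℝ) ≤ B := Nat.floor_le (by linarith)
  set f : ℕ → Fin n → ℝ := fun l => ((l : ℝ) / m) • g with hf
  have hkey : ∀ l l' : ℕ, l ≠ l' → ¬∀ x ∈ A, |x ⬝ᵥ f l - x ⬝ᵥ f l'| ≤ τ := by
    intro l l' hne h
    have h1 := h a ha
    simp only [hf, dotProduct_smul, smul_eq_mul, ← sub_mul, ← sub_div, abs_mul, abs_div] at h1
    have h2 : (1 : ℝ) ≤ |(l : ℝ) - l'| := by
      rcases Nat.lt_or_gt_of_ne hne with h | h
      · have : (l : ℝ) + 1 ≤ l' := by exact_mod_cast h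
        rw [abs_of_neg (by linarith)]; linarith
      · have : (l' : ℝ) + 1 ≤ l := by exact_mod_cast h
        rw [abs_of_pos (by linarith)]; linarith
    rw [abs_of_pos hm0] at h1
    have h3 : 1 / B * (1 / (4 * B)) ≤ τ := by
      refine le_trans (mul_le_mul ?_ hsep.le (by positivity) (by positivity)) h1
      exact div_le_div₀ (by positivity) h2 hm0 hmB
    rw [div_mul_div_comm, one_mul, div_le_iff₀ (by positivity)] at h3
    nlinarith
  have hinj : Function.Injective f := fun l l' h => by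
    by_contra hne
    exact hkey l l' hne fun x _ => by simp [h, hτ0]
  have := hQmax ((range (m + 1)).image f) (fun y hy => by
    obtain ⟨l, hl, rfl⟩ := mem_image.1 hy
    intro x hx
    simp only [hf, dotProduct_smul, smul_eq_mul]
    have : (l : ℝ) / m ≤ 1 := by
      rw [div_le_one hm0]; exact_mod_cast Nat.lt_succ_iff.1 (mem_range.1 hl)
    have := hg x hx
    nlinarith [mul_le_mul_of_nonneg_left this (by positivity : (0 : ℝ) ≤ (l : ℝ) / m)])
    (fun y hy y' hy' hne => by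
      obtain ⟨l, -, rfl⟩ := mem_image.1 hy
      obtain ⟨l', -, rfl⟩ := mem_image.1 hy'
      exact hkey l l' fun h => hne (by rw [h]))
  rw [card_image_of_injective _ hinj, card_range] at this
  calc B ≤ (m + 1 : ℕ) := by push_cast; exact (Nat.lt_floor_add_one B).le
    _ ≤ _ := by exact_mod_cast this

theorem piece (J : ℕ) (hJ : 4 ≤ J) {B : ℝ} (hB : bigB J ≤ B)
    {L : Set (Fin n → ℝ)} (hL : IsBody L) (A : Set (Fin n → ℝ)) (hA : IsCompact A)
    (hA0 : (0 : Fin n → ℝ) ∈ A) (hAL : A ⊆ L)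
    (S : Finset (Fin n → ℝ)) (hSA : ∀ s ∈ S, s ∈ A)
    (hS : ∀ s ∈ S, ∀ s' ∈ S, s ≠ s' → ∃ g ∈ polar L, 1 / (2 * B) < (s - s') ⬝ᵥ g)
    (Q : Finset (Fin n → ℝ)) (hQG : ∀ q ∈ Q, q ∈ polar L) {τ : ℝ} (hτ : τ = 1 / B ^ 6)
    (hQnet : ∀ g ∈ polar L, ∃ q ∈ Q, ∀ x ∈ A, |x ⬝ᵥ g - x ⬝ᵥ q| ≤ τ)
    (hQmax : ∀ Y : Finset (Fin n → ℝ), (∀ y ∈ Y, y ∈ polar L) →
      (∀ y ∈ Y, ∀ y' ∈ Y, y ≠ y' → ¬∀ x ∈ A, |x ⬝ᵥ y - x ⬝ᵥ y'| ≤ τ) → Y.card ≤ Q.card) :
    log S.card ≤ 192 * J * log Q.card + 100 * log Q.card ^ 2 / B ^ J := by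
  classical
  have hlogQ0 : 0 ≤ log (Q.card : ℝ) := log_natCast_nonneg _
  by_cases hS1 : S.card ≤ 1
  · have : log (S.card : ℝ) ≤ 0 := log_nonpos (Nat.cast_nonneg _) (by exact_mod_cast hS1)
    have : 0 ≤ 192 * (J : ℝ) * log Q.card := by positivity
    have : 0 ≤ 100 * log (Q.card : ℝ) ^ 2 / B ^ J := by
      have : 0 < B := lt_of_lt_of_le (by unfold bigB; positivity) hB
      positivity
    linarith
  push Not at hS1
  have hJ4 : (4 : ℝ) ≤ J := by exact_mod_cast hJ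
  unfold bigB at hB
  have hB6 : (1000000 : ℝ) ≤ B := by nlinarith
  have hB0 : 0 < B := by linarith
  have hB1 : 1 ≤ B := by linarith
  have hτ0 : 0 < τ := by rw [hτ]; positivity
  have hp : ∀ a b : ℕ, a ≤ b → B ^ a ≤ B ^ b := fun a b h => pow_le_pow_right₀ hB1 h
  -- many tests
  have hQB : B ≤ Q.card := by
    obtain ⟨s, hs, s', hs', hne⟩ := one_lt_card.1 hS1
    obtain ⟨g, hg, hsep⟩ := hS s hs s' hs' hne
    rw [sub_dotProduct] at hsep
    have hτB : τ * (4 * B ^ 2) < 1 := by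
      rw [hτ, one_div, inv_mul_lt_iff₀ (by positivity), mul_one]
      nlinarith [mul_le_mul_of_nonneg_left (hp 1 4 (by norm_num)) (sq_nonneg B), pow_pos hB0 2]
    have hhalf : 1 / (2 * B) = 2 * (1 / (4 * B)) := by field_simp; norm_num
    by_cases h : 1 / (4 * B) < |s ⬝ᵥ g|
    · exact card_dual_ge hL Q hτ0.le hτB hB1 hQmax (hSA s hs) hg h
    · refine card_dual_ge hL Q hτ0.le hτB hB1 hQmax (hSA s' hs') hg ?_
      have := abs_le.1 (not_lt.1 h)
      exact lt_of_lt_of_le (by linarith) (neg_le_abs _)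
  have hQpos : (0 : ℝ) < Q.card := by linarith
  obtain ⟨row, hrowA, hrowmax⟩ : ∃ row : Q → Fin n → ℝ, (∀ i, row i ∈ A) ∧
      ∀ (i : Q) (x : Fin n → ℝ), x ∈ A → x ⬝ᵥ (i : Fin n → ℝ) ≤ row i ⬝ᵥ (i : Fin n → ℝ) := by
    have : ∀ i : Q, ∃ r ∈ A, ∀ x ∈ A, x ⬝ᵥ (i : Fin n → ℝ) ≤ r ⬝ᵥ (i : Fin n → ℝ) := fun i =>
      hA.exists_isMaxOn ⟨0, hA0⟩ (f := fun x => x ⬝ᵥ (i : Fin n → ℝ))
        (by unfold dotProduct; fun_prop)
    choose row h1 h2 using this
    exact ⟨row, h1, fun i x hx => h2 i x hx⟩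
  set z : Q → Q → ℝ := fun i c => row i ⬝ᵥ (c : Fin n → ℝ) with hz
  set xs : S → Q → ℝ := fun a c => (a : Fin n → ℝ) ⬝ᵥ (c : Fin n → ℝ) with hxs
  have hz1 : ∀ i c, |z i c| ≤ 1 := fun i c => abs_dot_le hL (hAL (hrowA i)) (hQG _ c.2)
  have hxs1 : ∀ a c, |xs a c| ≤ 1 := fun a c => abs_dot_le hL (hAL (hSA _ a.2)) (hQG _ c.2)
  have hval : ∀ (x : Fin n → ℝ) (y : Q → ℝ), x ⬝ᵥ (∑ c, y c • (c : Fin n → ℝ)) =
      y ⬝ᵥ fun c => x ⬝ᵥ (c : Fin n → ℝ) := fun x y => by
    simp only [dotProduct_sum, dotProduct_smul, smul_eq_mul]; rfl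
  set σ := 1 / (4 * B) with hσ
  have hτσ : 4 * τ ≤ σ / 40 := by
    rw [hτ, hσ, div_div, ← mul_div_assoc, mul_one, div_le_div_iff₀ (by positivity) (by positivity)]
    nlinarith [mul_le_mul_of_nonneg_left (hp 1 5 (by norm_num)) hB0.le]
  have hsepx : ∀ a b : S, a ≠ b → ∃ c, σ ≤ |xs a c - xs b c| := by
    intro a b hne
    obtain ⟨g, hg, hgt⟩ := hS _ a.2 _ b.2 (fun h => hne (Subtype.ext h))
    obtain ⟨q, hq, hnear⟩ := hQnet g hg
    refine ⟨⟨q, hq⟩, le_trans ?_ (le_abs_self _)⟩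
    have h1 := abs_le.1 (hnear _ (hSA _ a.2))
    have h2 := abs_le.1 (hnear _ (hSA _ b.2))
    rw [sub_dotProduct, show 1 / (2 * B) = 2 * σ by rw [hσ]; field_simp; norm_num] at hgt
    simp only [hxs]
    linarith
  have hhull : ∀ a : S, ∃ p, IsProb p ∧ ‖rowMean z p - xs a‖ ≤ σ / 40 := by
    intro a
    set x' : Option (Q) → Q → ℝ := fun o => o.elim (xs a) z with hx'
    set w : Option (Q) → ℝ := fun o => o.elim 0 fun _ => 1 with hw
    obtain ⟨q, hq, hqw, hdist⟩ := exists_cluster x' w (fun o => by cases o <;> simp [hw]) none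
      (p := 1 / 2) (by norm_num) (ε := σ / 40) (by positivity) (fun y hy => by
        obtain ⟨q, hq, hnear⟩ := hQnet _ (combo_mem_polar hL (fun c : Q => (c : Fin n → ℝ))
          (fun c => hQG _ c.2) y hy)
        have key : y ⬝ᵥ x' none - σ / 40 ≤ y ⬝ᵥ x' (some ⟨q, hq⟩) := by
          have h1 := abs_le.1 (hnear _ (hSA _ a.2))
          have h2 := abs_le.1 (hnear _ (hrowA ⟨q, hq⟩))
          have h3 := hrowmax ⟨q, hq⟩ _ (hSA _ a.2)
          rw [hval] at h1 h2
          simp only [hx', Option.elim, hxs, hz]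
          linarith
        refine lt_of_lt_of_le ?_ (single_le_sum (fun o _ => ?_) (mem_univ (some ⟨q, hq⟩)))
        · simp [key, hw]; norm_num
        · split_ifs
          · cases o <;> simp [hw]
          · exact le_rfl)
    have hnone : q none = 0 := le_antisymm (by simpa [hw] using hqw none) (hq.1 none)
    refine ⟨fun i => q (some i), ⟨fun i => hq.1 _, ?_⟩, ?_⟩
    · have := hq.2
      rwa [Fintype.sum_option, hnone, zero_add] at this
    · rw [Fintype.sum_option, hnone, zero_smul, zero_add] at hdist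
      exact hdist
  set k := Nat.ceil (409600 * B ^ 2 * log (8 * Q.card)) with hk
  have hlog8 : 0 ≤ log (8 * (Q.card : ℝ)) := log_nonneg (by linarith)
  have hkβ : 2 * (Fintype.card Q : ℝ) * exp (-(k * (σ / 40) ^ 2 / 16)) ≤ 1 / 4 := by
    rw [Fintype.card_coe]
    have h1 : log (8 * (Q.card : ℝ)) ≤ k * (σ / 40) ^ 2 / 16 := by
      have := Nat.le_ceil (409600 * B ^ 2 * log (8 * (Q.card : ℝ)))
      rw [← hk] at this
      rw [show (k : ℝ) * (σ / 40) ^ 2 / 16 = k / (409600 * B ^ 2) by rw [hσ]; field_simp; ring,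
        le_div_iff₀ (by positivity)]
      linarith
    have h2 : exp (-((k : ℝ) * (σ / 40) ^ 2 / 16)) ≤ 1 / (8 * Q.card) := by
      rw [one_div, ← exp_log (by positivity : (0 : ℝ) < 8 * (Q.card : ℝ)), ← exp_neg]
      exact exp_le_exp.2 (neg_le_neg h1)
    calc _ ≤ 2 * (Q.card : ℝ) * (1 / (8 * Q.card)) := mul_le_mul_of_nonneg_left h2 (by positivity)
      _ = _ := by field_simp; norm_num
  set γ := 1 / B ^ 3 with hγ
  have hγ1 : γ ≤ 1 := by rw [hγ, div_le_one (by positivity)]; exact one_le_pow₀ hB1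
  have hlQ : 1 ≤ log (Q.card : ℝ) := by
    rw [le_log_iff_exp_le hQpos]
    exact (exp_one_lt_d9.le.trans (by norm_num : (2.7182818286 : ℝ) ≤ 1000000)).trans
      (hB6.trans hQB)
  set E := 25 * log (Q.card : ℝ) ^ 2 / B ^ J with hE
  have hE0 : 0 ≤ E := by positivity
  have hγk : (k : ℝ) * ((log (Fintype.card (Q)) + 1) * γ ^ J) ≤ 1 + E := by
    rw [Fintype.card_coe]
    have hl2 : log 2 ≤ 1 := (log_le_sub_one_of_pos (by norm_num)).trans (by norm_num)
    have hl8 : log (8 * (Q.card : ℝ)) ≤ log Q.card + 3 := by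
      rw [log_mul (by norm_num) hQpos.ne', show (8 : ℝ) = 2 ^ 3 by norm_num, log_pow]
      push_cast
      linarith
    have hk1 : (k : ℝ) ≤ B ^ 3 * (log Q.card + 4) := by
      have := (Nat.ceil_lt_add_one (by positivity : 0 ≤ 409600 * B ^ 2 * log (8 * (Q.card : ℝ)))).le
      rw [← hk] at this
      refine this.trans ?_
      have : 409600 * B ^ 2 * log (8 * (Q.card : ℝ)) ≤ B ^ 3 * (log Q.card + 3) := by
        refine mul_le_mul ?_ hl8 hlog8 (by positivity)
        rw [pow_succ B 2, mul_comm (B ^ 2) B]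
        exact mul_le_mul_of_nonneg_right (by linarith) (sq_nonneg B)
      nlinarith [one_le_pow₀ (n := 3) hB1]
    calc (k : ℝ) * ((log Q.card + 1) * γ ^ J)
        ≤ B ^ 3 * (5 * log Q.card) * ((5 * log Q.card) * γ ^ J) := by
          gcongr
          · exact hk1.trans (mul_le_mul_of_nonneg_left (by linarith) (by positivity))
          · linarith
      _ = 25 * log (Q.card : ℝ) ^ 2 * B ^ 3 / B ^ (3 * J) := by
          rw [hγ, div_pow, one_pow, ← pow_mul]; ring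
      _ ≤ E := by
          rw [hE, div_le_div_iff₀ (by positivity) (by positivity), mul_assoc (25 * _) (B ^ 3),
            ← pow_add]
          exact mul_le_mul_of_nonneg_left (hp _ _ (by omega)) (by positivity)
      _ ≤ _ := le_add_of_nonneg_left zero_le_one
  set ε := γ * σ / (1600 * J) with hε
  have hεlow : 1 / B ^ 5 ≤ ε := by
    rw [hε, hγ, hσ, div_mul_div_comm, one_mul, div_div, div_le_div_iff₀ (by positivity) (by positivity)]
    have : B ^ 3 * (4 * B) * (1600 * J) = B ^ 4 * (6400 * J) := by ring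
    rw [this, one_mul, one_mul, show B ^ 5 = B ^ 4 * B by ring]
    gcongr
    nlinarith
  have hε0 : 0 < ε := lt_of_lt_of_le (by positivity) hεlow
  obtain ⟨Y, hY1, hY2, hY3⟩ := core J (by omega) z xs hz1 (fun a c => (hxs1 a c).trans one_le_two)
    (σ := σ) (by positivity) (by rw [hσ, div_le_one (by positivity)]; linarith) hsepx hhull k hkβ
    (γ := γ) (ε := ε) (E := E) (by positivity) hγ1 hE0 hγk hε
  have hτε : τ < ε / 2 := by
    refine lt_of_lt_of_le ?_ (div_le_div_of_nonneg_right hεlow (by norm_num))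
    rw [hτ, div_div, div_lt_div_iff₀ (by positivity) (by positivity)]
    nlinarith [pow_pos hB0 5, pow_succ B 5]
  set Φ : (Q → ℝ) → Fin n → ℝ := fun y => ∑ c, y c • (c : Fin n → ℝ) with hΦ
  have hYsep : ∀ y ∈ Y, ∀ y' ∈ Y, y ≠ y' → ¬∀ x ∈ A, |x ⬝ᵥ Φ y - x ⬝ᵥ Φ y'| ≤ τ := by
    intro y hy y' hy' hne h
    obtain ⟨a, ha⟩ := hY2 y hy y' hy' hne
    have h1 := h _ (hSA _ a.2)
    simp only [hΦ, hval] at h1
    simp only [hxs] at ha
    linarith
  have hcard : Y.card ≤ Q.card := by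
    rw [← card_image_of_injOn (f := Φ) (s := Y) fun y hy y' hy' he => by
      by_contra hne
      exact hYsep y hy y' hy' hne fun x _ => by simp [he, hτ0.le]]
    refine hQmax _ (fun g hg => ?_) fun g hg g' hg' hne => ?_
    · obtain ⟨y, hy, rfl⟩ := mem_image.1 hg
      exact combo_mem_polar hL _ (fun c => hQG _ c.2) y (hY1 y hy)
    · obtain ⟨y, hy, rfl⟩ := mem_image.1 hg
      obtain ⟨y', hy', rfl⟩ := mem_image.1 hg'
      exact hYsep y hy y' hy' fun h => hne (by rw [h])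
  rw [Fintype.card_coe] at hY3
  have hlY : log (Y.card : ℝ) ≤ log Q.card := by
    rcases Nat.eq_zero_or_pos Y.card with h | h
    · simpa [h] using hlogQ0
    · exact log_le_log (by exact_mod_cast h) (by exact_mod_cast hcard)
  have hl2000 : log (2000 / ε) ≤ 7 * log Q.card := by
    have h1 : 2000 / ε ≤ B ^ 6 := by
      rw [div_le_iff₀ hε0]
      calc (2000 : ℝ) ≤ B := by linarith
        _ = B ^ 6 * (1 / B ^ 5) := by field_simp
        _ ≤ _ := mul_le_mul_of_nonneg_left hεlow (by positivity)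
    calc log (2000 / ε) ≤ log (B ^ 6) := log_le_log (by positivity) h1
      _ = 6 * log B := by rw [log_pow]; norm_num
      _ ≤ 6 * log Q.card := mul_le_mul_of_nonneg_left (log_le_log hB0 hQB) (by norm_num)
      _ ≤ _ := by linarith
  calc log (S.card : ℝ) ≤ 24 * J * (log Y.card + log (2000 / ε)) + 4 * E := hY3
    _ ≤ 24 * J * (8 * log Q.card) + 4 * E :=
        add_le_add (mul_le_mul_of_nonneg_left (by linarith) (by positivity)) le_rfl
    _ = _ := by rw [hE]; ring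

end Vale.Agent.P126

end
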