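import Mathlib
import Vale.Agent.P126.Pieces

/-!
# Telescoping: the duality inequality at sub-polynomial scale with a bounded factor
-/

noncomputable section

open Finset Real
open scoped BigOperators Pointwise

namespace Vale.Agent.P126

variable {n : ℕ}

theorem geo_tail (T : Finset ℕ) (d : ℕ) (hT : ∀ i ∈ T, d ≤ i) {B : ℝ} (hB : 2 ≤ B) :
    ∑ i ∈ T, (B⁻¹) ^ i ≤ 2 * (B⁻¹) ^ d := by
  have hB0 : 0 ≤ B⁻¹ := by positivity
  calc ∑ i ∈ T, (B⁻¹) ^ i ≤ ∑ i ∈ (range (T.sup id + 1)).image (· + d), (B⁻¹) ^ i := by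
        refine sum_le_sum_of_subset_of_nonneg (fun i hi => ?_) fun i _ _ => pow_nonneg hB0 i
        refine mem_image.2 ⟨i - d, mem_range.2 ?_, Nat.sub_add_cancel (hT i hi)⟩
        have := le_sup (f := id) hi
        simp only [id_eq] at this
        omega
    _ = ∑ t ∈ range (T.sup id + 1), (B⁻¹) ^ t * (B⁻¹) ^ d := by
        rw [sum_image fun a _ b _ h => Nat.add_right_cancel h]
        simp [pow_add]
    _ = (∑ t ∈ range (T.sup id + 1), (B⁻¹) ^ t) * (B⁻¹) ^ d := by rw [sum_mul]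
    _ ≤ 2 * (B⁻¹) ^ d := by
        refine mul_le_mul_of_nonneg_right ?_ (pow_nonneg hB0 d)
        refine le_trans (sum_le_sum fun t _ => pow_le_pow_left₀ hB0 ?_ t) (sum_geometric_two_le _)
        rw [one_div]; exact inv_anti₀ (by norm_num) hB

theorem sub_mem_smul {L : Set (Fin n → ℝ)} (hL : IsBody L) {s t : ℝ} (hs : 0 ≤ s) (ht : 0 < t)
    (hst : 2 * s ≤ t) {u v : Fin n → ℝ} (hu : u ∈ s • L) (hv : v ∈ s • L) : u - v ∈ t • L := by
  obtain ⟨l, hl, rfl⟩ := hu
  obtain ⟨m, hm, rfl⟩ := hv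
  have h1 := hL.1.smul_mem_of_zero_mem hL.zero_mem hl
    (show 2 * s / t ∈ Set.Icc (0 : ℝ) 1 from ⟨by positivity, by rwa [div_le_one ht]⟩)
  have h2 := hL.1.smul_mem_of_zero_mem hL.zero_mem (hL.2.2.2 m hm)
    (show 2 * s / t ∈ Set.Icc (0 : ℝ) 1 from ⟨by positivity, by rwa [div_le_one ht]⟩)
  have h3 := hL.1 h1 h2 (by norm_num : (0 : ℝ) ≤ 1 / 2) (by norm_num : (0 : ℝ) ≤ 1 / 2) (by norm_num)
  refine ⟨_, h3, ?_⟩
  simp only [smul_smul, smul_neg, ← sub_eq_add_neg]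
  rw [smul_sub, smul_smul, smul_smul, show t * (1 / 2 * (2 * s / t)) = s by field_simp]

/-- The piece of `K` at scale `B ^ i`, rescaled into `L`. -/
def pieceSet (K L : Set (Fin n → ℝ)) (B : ℝ) (i : ℕ) : Set (Fin n → ℝ) :=
  (B ^ i)⁻¹ • (K ∩ B ^ i • L)

theorem pieceSet_subset {K L : Set (Fin n → ℝ)} {B : ℝ} (hB : 0 < B) (i : ℕ) :
    pieceSet K L B i ⊆ L := by
  rintro _ ⟨f, ⟨-, l, hl, rfl⟩, rfl⟩
  simpa [(pow_pos hB i).ne'] using hl

theorem pieceSet_compact {K L : Set (Fin n → ℝ)} (hK : IsBody K) (hL : IsBody L) (B : ℝ) (i : ℕ) :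
    IsCompact (pieceSet K L B i) :=
  (hK.2.1.inter (hL.2.1.smul _)).smul _

theorem zero_mem_pieceSet {K L : Set (Fin n → ℝ)} (hK : IsBody K) (hL : IsBody L) (B : ℝ) (i : ℕ) :
    (0 : Fin n → ℝ) ∈ pieceSet K L B i :=
  ⟨0, ⟨hK.zero_mem, 0, hL.zero_mem, smul_zero _⟩, smul_zero _⟩

theorem dot_diff_le {K : Set (Fin n → ℝ)} (hK : IsBody K) {a : ℝ} (ha : 0 < a)
    {b b' f : Fin n → ℝ} (hb : b ∈ a⁻¹ • polar K) (hb' : b' ∈ a⁻¹ • polar K) (hf : f ∈ K) :
    |f ⬝ᵥ (b - b')| ≤ 2 / a := by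
  obtain ⟨c, hc, rfl⟩ := hb
  obtain ⟨c', hc', rfl⟩ := hb'
  rw [dotProduct_sub, dotProduct_smul, dotProduct_smul, smul_eq_mul, smul_eq_mul, ← mul_sub,
    abs_mul, abs_of_pos (inv_pos.2 ha), div_eq_inv_mul]
  refine mul_le_mul_of_nonneg_left ((abs_sub _ _).trans ?_) (inv_nonneg.2 ha.le)
  linarith [abs_dot_le hK hf hc, abs_dot_le hK hf hc']

theorem combine {K L : Set (Fin n → ℝ)} (hK : IsBody K) (hL : IsBody L) {B τ a : ℝ}
    (hB : 16 ≤ B) (hτ : τ = 1 / B ^ 6) (ha : 16 * B ^ 6 ≤ a) (T : Finset ℕ)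
    (hT1 : ∀ i ∈ T, 1 ≤ i) (hT7 : ∀ i ∈ T, ∀ j ∈ T, j < i → j + 7 ≤ i)
    (Q : ℕ → Finset (Fin n → ℝ)) (hQG : ∀ i, ∀ q ∈ Q i, q ∈ polar L)
    (hQsep : ∀ i, ∀ q ∈ Q i, ∀ q' ∈ Q i, q ≠ q' →
      ¬∀ x ∈ pieceSet K L B i, |x ⬝ᵥ q - x ⬝ᵥ q'| ≤ τ) :
    ∏ i ∈ T, (Q i).card ≤ covNum (polar L) (a⁻¹ • polar K) := by
  classical
  have hB0 : 0 < B := by linarith
  have ha0 : 0 < a := lt_of_lt_of_le (by positivity) ha
  set P := Fintype.piFinset fun i : T => Q i with hP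
  set φ : (T → Fin n → ℝ) → Fin n → ℝ := fun p => (1 / 2 : ℝ) • ∑ i : T, (B⁻¹) ^ (i : ℕ) • p i
    with hφ
  have hkey : ∀ p ∈ P, ∀ p' ∈ P, p ≠ p' → ∃ f ∈ K, 2 / a < |f ⬝ᵥ (φ p - φ p')| := by
    intro p hp p' hp' hne
    rw [hP, Fintype.mem_piFinset] at hp hp'
    have hD : (univ.filter fun i : T => p i ≠ p' i).Nonempty := by
      obtain ⟨i, hi⟩ := Function.ne_iff.1 hne
      exact ⟨i, by simp [hi]⟩
    obtain ⟨j, hj, hjmin⟩ := exists_min_image _ (fun i : T => (i : ℕ)) hD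
    simp only [mem_filter, mem_univ, true_and] at hj hjmin
    obtain ⟨x, hx, hxsep⟩ : ∃ x ∈ pieceSet K L B j, τ < |x ⬝ᵥ p j - x ⬝ᵥ p' j| := by
      have := hQsep j _ (hp j) _ (hp' j) hj
      push Not at this
      exact this
    obtain ⟨f, ⟨hfK, l, hl, rfl⟩, rfl⟩ := hx
    simp only [smul_smul, inv_mul_cancel₀ (pow_pos hB0 _).ne', one_smul] at hxsep hfK ⊢
    refine ⟨B ^ (j : ℕ) • l, hfK, ?_⟩
    set d : T → ℝ := fun i => (B⁻¹) ^ (i : ℕ) * B ^ (j : ℕ) * (l ⬝ᵥ p i - l ⬝ᵥ p' i) with hd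
    have hval : (B ^ (j : ℕ) • l) ⬝ᵥ (φ p - φ p') = 1 / 2 * ∑ i, d i := by
      simp only [hφ, dotProduct_sub, dotProduct_smul, smul_dotProduct, dotProduct_sum, smul_eq_mul,
        ← mul_sub, ← sum_sub_distrib, hd, mul_sum]
      refine sum_congr rfl fun i _ => ?_
      ring
    have hdj : d j = l ⬝ᵥ p j - l ⬝ᵥ p' j := by
      simp only [hd, inv_pow, inv_mul_cancel₀ (pow_pos hB0 _).ne', one_mul]
    have hrest : |∑ i ∈ univ.erase j, d i| ≤ 4 * (B⁻¹) ^ 7 := by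
      refine (abs_sum_le_sum_abs _ _).trans ?_
      set T' := (univ.erase j).filter fun i : T => (j : ℕ) < i with hT'
      calc ∑ i ∈ univ.erase j, |d i| = ∑ i ∈ T', |d i| := by
            refine (sum_subset (filter_subset _ _) fun i hi hi' => ?_).symm
            simp only [mem_filter, hi, true_and, not_lt] at hi'
            have : p i = p' i := by
              by_contra h
              have := hjmin i h
              exact (mem_erase.1 hi).1 (Subtype.ext (le_antisymm hi' this))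
            simp [hd, this]
        _ ≤ ∑ i ∈ T', 2 * (B⁻¹) ^ ((i : ℕ) - j) := by
            refine sum_le_sum fun i hi => ?_
            have hlt := (mem_filter.1 hi).2
            have h1 := abs_dot_le hL hl (hQG _ _ (hp i))
            have h2 := abs_dot_le hL hl (hQG _ _ (hp' i))
            have e : (B⁻¹) ^ (i : ℕ) * B ^ (j : ℕ) = (B⁻¹) ^ ((i : ℕ) - j) := by
              conv_lhs => rw [← Nat.sub_add_cancel hlt.le, pow_add, mul_assoc, ← mul_pow,
                inv_mul_cancel₀ hB0.ne', one_pow, mul_one]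
            simp only [hd]
            rw [e, abs_mul, abs_of_nonneg (by positivity : 0 ≤ (B⁻¹) ^ ((i : ℕ) - j)), mul_comm]
            exact mul_le_mul_of_nonneg_right ((abs_sub _ _).trans (by linarith)) (by positivity)
        _ = 2 * ∑ t ∈ T'.image (fun i : T => (i : ℕ) - j), (B⁻¹) ^ t := by
            rw [mul_sum, sum_image]
            intro i hi i' hi' he
            have h1 := (mem_filter.1 hi).2
            have h2 := (mem_filter.1 hi').2
            simp only at he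
            exact Subtype.ext (by omega)
        _ ≤ 2 * (2 * (B⁻¹) ^ 7) := by
            refine mul_le_mul_of_nonneg_left (geo_tail _ 7 (fun t ht => ?_) (by linarith)) (by norm_num)
            obtain ⟨i, hi, rfl⟩ := mem_image.1 ht
            have := hT7 _ i.2 _ j.2 (mem_filter.1 hi).2
            omega
        _ = _ := by ring
    have hsmall : 4 * (B⁻¹) ^ 7 ≤ τ / 4 := by
      rw [hτ, inv_pow, ← one_div, ← mul_div_assoc, mul_one, div_div,
        div_le_div_iff₀ (by positivity) (by positivity)]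
      nlinarith [pow_succ B 6, pow_pos hB0 6]
    have ha2 : 2 / a ≤ τ / 8 := by
      rw [hτ, div_div, div_le_div_iff₀ ha0 (by positivity)]
      linarith
    rw [hval, ← add_sum_erase _ _ (mem_univ j), hdj, abs_mul,
      abs_of_pos (by norm_num : (0 : ℝ) < 1 / 2)]
    have h0 : 0 < τ := by rw [hτ]; positivity
    have := abs_sub_abs_le_abs_add (l ⬝ᵥ p j - l ⬝ᵥ p' j) (∑ i ∈ univ.erase j, d i)
    linarith
  have hinj : Set.InjOn φ P := fun p hp p' hp' he => by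
    by_contra hne
    obtain ⟨f, -, hf⟩ := hkey p hp p' hp' hne
    rw [he, sub_self, dotProduct_zero, abs_zero] at hf
    exact absurd hf (not_lt.2 (by positivity))
  calc ∏ i ∈ T, (Q i).card = P.card := by
        rw [hP, Fintype.card_piFinset]
        exact (prod_coe_sort T fun i => (Q i).card).symm
    _ = (P.image φ).card := (card_image_of_injOn hinj).symm
    _ ≤ _ := by
      refine card_le_covNum (isBody_polar hL).2.1
        (smul_interior_nonempty (isBody_polar hK).2.2.1 (inv_ne_zero ha0.ne')) _ (fun g hg => ?_)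
        fun g hg g' hg' hne b hb b' hb' he => ?_
      · obtain ⟨p, hp, rfl⟩ := mem_image.1 hg
        rw [hP, Fintype.mem_piFinset] at hp
        intro x hx
        simp only [hφ, dotProduct_smul, dotProduct_sum, smul_eq_mul]
        have h1 : ∑ i : T, (B⁻¹) ^ (i : ℕ) * (x ⬝ᵥ p i) ≤ ∑ i ∈ T, (B⁻¹) ^ i := by
          rw [← sum_coe_sort T fun i => (B⁻¹) ^ i]
          refine sum_le_sum fun i _ => mul_le_of_le_one_right (by positivity) ?_
          exact hQG _ _ (hp i) x hx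
        have h2 := geo_tail T 1 hT1 (by linarith : 2 ≤ B)
        have h3 : B⁻¹ ≤ 1 := inv_le_one_of_one_le₀ (by linarith)
        rw [pow_one] at h2
        linarith
      · obtain ⟨p, hp, rfl⟩ := mem_image.1 hg
        obtain ⟨p', hp', rfl⟩ := mem_image.1 hg'
        obtain ⟨f, hfK, hf⟩ := hkey p hp p' hp' fun h => hne (by rw [h])
        rw [he] at hf
        exact absurd (dot_diff_le hK ha0 hb hb' hfK) (not_le.2 hf)

theorem descend {K L : Set (Fin n → ℝ)} (hK : IsBody K) (hL : IsBody L) {B : ℝ} (hB : 0 < B)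
    (i : ℕ) (S : Finset (Fin n → ℝ))
    (hS : ∀ x ∈ pieceSet K L B (i + 1), ∃ s ∈ S, x - s ∈ (1 / (2 * B)) • L) :
    covNum K (B ^ i • L) ≤ covNum K (B ^ (i + 1) • L) * S.card := by
  classical
  set N := covNum K (B ^ (i + 1) • L) with hN
  obtain ⟨v, hv⟩ := coveredBy_covNum hK.2.1
    (smul_interior_nonempty hL.2.2.1 (pow_pos hB (i + 1)).ne')
  have hrep : ∀ l : Fin N, ∃ x0 : Fin n → ℝ,
      (∃ y ∈ K, y ∈ (fun b => v l + b) '' (B ^ (i + 1) • L)) →
        x0 ∈ K ∧ x0 ∈ (fun b => v l + b) '' (B ^ (i + 1) • L) := fun l => by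
    by_cases h : ∃ y ∈ K, y ∈ (fun b => v l + b) '' (B ^ (i + 1) • L)
    · obtain ⟨y, h1, h2⟩ := h
      exact ⟨y, fun _ => ⟨h1, h2⟩⟩
    · exact ⟨0, fun h' => absurd h' h⟩
  choose x0 hx0 using hrep
  set Z := (univ ×ˢ S).image fun q : Fin N × (Fin n → ℝ) => x0 q.1 + (2 * B ^ (i + 1)) • q.2 with hZ
  refine (covNum_le_card Z fun x hx => ?_).trans ?_
  · obtain ⟨l, hl⟩ := Set.mem_iUnion.1 (hv hx)
    obtain ⟨hx0K, b0, hb0, hb0'⟩ := hx0 l ⟨x, hx, hl⟩
    obtain ⟨b, hb, hb'⟩ := hl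
    have hdiff : x - x0 l = b - b0 := by
      rw [← hb', ← hb0', add_sub_add_left_eq_sub]
    have hfK : (1 / 2 : ℝ) • (x - x0 l) ∈ K := by
      rw [sub_eq_add_neg, smul_add]
      exact hK.1 hx (hK.2.2.2 _ hx0K) (by norm_num) (by norm_num) (by norm_num)
    have hfL : (1 / 2 : ℝ) • (x - x0 l) ∈ B ^ (i + 1) • L := by
      rw [hdiff]
      obtain ⟨m, hm, he⟩ := sub_mem_smul hL (pow_pos hB (i + 1)).le
        (by positivity : 0 < 2 * B ^ (i + 1)) le_rfl hb hb0
      refine ⟨m, hm, ?_⟩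
      simp only at he ⊢
      rw [← he, smul_smul]; congr 1; ring
    obtain ⟨s, hs, m, hm, he⟩ := hS _ ⟨_, ⟨hfK, hfL⟩, rfl⟩
    refine ⟨_, mem_image.2 ⟨(l, s), mem_product.2 ⟨mem_univ _, hs⟩, rfl⟩, m, hm, ?_⟩
    have h1 : (2 * B ^ (i + 1)) • ((B ^ (i + 1))⁻¹ • (1 / 2 : ℝ) • (x - x0 l)) = x - x0 l := by
      rw [smul_smul, smul_smul]
      convert one_smul ℝ (x - x0 l) using 2
      field_simp
    have h2 : B ^ i = 2 * B ^ (i + 1) * (1 / (2 * B)) := by field_simp; ring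
    simp only at he ⊢
    calc B ^ i • m = (2 * B ^ (i + 1)) • ((1 / (2 * B)) • m) := by rw [h2, smul_smul]
      _ = _ := by rw [he, smul_sub, h1]; abel
  · refine card_image_le.trans ?_
    simp [card_product]

theorem trade_off :
    ∀ J : ℕ, 4 ≤ J → ∀ (B a : ℝ), bigB J ≤ B → 16 * B ^ 6 ≤ a →
      ∀ (n : ℕ) (K L : Set (Fin n → ℝ)), IsBody K → IsBody L →
      log (covNum K L) ≤ 1344 * J * log (covNum (polar L) (a⁻¹ • polar K)) +
        4900 * log (covNum (polar L) (a⁻¹ • polar K)) ^ 2 / B ^ J := by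
  classical
  intro J hJ B a hBbig hB6 n K L hK hL
  have hJ4 : (4 : ℝ) ≤ J := by exact_mod_cast hJ
  set H := log (covNum K L : ℝ) with hH
  set Ψ := log (covNum (polar L) (a⁻¹ • polar K) : ℝ) with hΨ
  have hΨ0 : 0 ≤ Ψ := log_natCast_nonneg _
  have hbig : 1000000 ≤ bigB J := by unfold bigB; linarith
  have hB16 : 16 ≤ B := by linarith
  have hB0 : 0 < B := by linarith
  have ha0 : 0 < a := lt_of_lt_of_le (by positivity) hB6
  set τ := 1 / B ^ 6 with hτ
  have hτ0 : 0 < τ := by positivity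
  have hG := isBody_polar hL
  have haK : (interior (a⁻¹ • polar K)).Nonempty :=
    smul_interior_nonempty (isBody_polar hK).2.2.1 (inv_ne_zero ha0.ne')
  -- dual nets
  have hQex : ∀ i, ∃ Q : Finset (Fin n → ℝ), (∀ q ∈ Q, q ∈ polar L) ∧
      (∀ q ∈ Q, ∀ q' ∈ Q, q ≠ q' → ¬∀ x ∈ pieceSet K L B i, |x ⬝ᵥ q - x ⬝ᵥ q'| ≤ τ) ∧
      (∀ g ∈ polar L, ∃ q ∈ Q, ∀ x ∈ pieceSet K L B i, |x ⬝ᵥ g - x ⬝ᵥ q| ≤ τ) ∧
      (∀ Y : Finset (Fin n → ℝ), (∀ y ∈ Y, y ∈ polar L) →
        (∀ y ∈ Y, ∀ y' ∈ Y, y ≠ y' → ¬∀ x ∈ pieceSet K L B i, |x ⬝ᵥ y - x ⬝ᵥ y'| ≤ τ) →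
          Y.card ≤ Q.card) := by
    intro i
    refine exists_max_sep (polar L)
      (fun g g' => ∀ x ∈ pieceSet K L B i, |x ⬝ᵥ g - x ⬝ᵥ g'| ≤ τ)
      (fun g _ x _ => by simp [hτ0.le]) (covNum (polar L) (a⁻¹ • polar K))
      (fun S hS hsep => card_le_covNum hG.2.1 haK S hS fun s hs s' hs' hne b hb b' hb' he => ?_)
      fun g _ g' _ h x hx => by rw [abs_sub_comm]; exact h x hx
    refine hsep s hs s' hs' hne ?_
    rintro _ ⟨f, ⟨hfK, -⟩, rfl⟩
    rw [smul_dotProduct, smul_dotProduct, smul_eq_mul, smul_eq_mul, ← mul_sub, ← dotProduct_sub, he]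
    rw [abs_mul, abs_of_nonneg (by positivity : 0 ≤ (B ^ i)⁻¹)]
    calc (B ^ i)⁻¹ * |f ⬝ᵥ (b - b')| ≤ 1 * (2 / a) :=
          mul_le_mul (inv_le_one_of_one_le₀ (one_le_pow₀ (by linarith)))
            (dot_diff_le hK ha0 hb hb' hfK) (abs_nonneg _) zero_le_one
      _ ≤ τ := by
          rw [one_mul, hτ, div_le_div_iff₀ ha0 (by positivity)]
          linarith [pow_pos hB0 6]
  choose Q hQG hQsep hQnet hQmax using hQex
  have hQpos : ∀ i, 0 < (Q i).card := fun i => by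
    obtain ⟨q, hq, -⟩ := hQnet i 0 hG.zero_mem
    exact card_pos.2 ⟨q, hq⟩
  -- primal nets
  have hSex : ∀ i, ∃ S : Finset (Fin n → ℝ), (∀ s ∈ S, s ∈ pieceSet K L B i) ∧
      (∀ s ∈ S, ∀ s' ∈ S, s ≠ s' → s - s' ∉ (1 / (2 * B)) • L) ∧
      (∀ x ∈ pieceSet K L B i, ∃ s ∈ S, x - s ∈ (1 / (2 * B)) • L) ∧
      (∀ T : Finset (Fin n → ℝ), (∀ s ∈ T, s ∈ pieceSet K L B i) →
        (∀ s ∈ T, ∀ s' ∈ T, s ≠ s' → s - s' ∉ (1 / (2 * B)) • L) → T.card ≤ S.card) := by
    intro i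
    refine exists_max_sep (pieceSet K L B i) (fun x y => x - y ∈ (1 / (2 * B)) • L)
      (fun x _ => by rw [sub_self]; exact ⟨0, hL.zero_mem, smul_zero _⟩)
      (covNum (pieceSet K L B i) ((1 / (8 * B)) • L))
      (fun S hS hsep => card_le_covNum (pieceSet_compact hK hL B i)
        (smul_interior_nonempty hL.2.2.1 (by positivity)) S hS
        fun s hs s' hs' hne b hb b' hb' he => hsep s hs s' hs' hne ?_) ?_
    · rw [he]
      refine sub_mem_smul hL (by positivity) (by positivity) ?_ hb hb'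
      rw [← mul_div_assoc, div_le_div_iff₀ (by positivity) (by positivity)]
      linarith
    · rintro x - y - ⟨m, hm, he⟩
      refine ⟨-m, hL.2.2.2 m hm, ?_⟩
      simp only at he ⊢
      rw [smul_neg, he, neg_sub]
  choose S hSA hSsep hSnet hSmax using hSex
  have hSpos : ∀ i, 0 < (S i).card := fun i => by
    obtain ⟨s, hs, -⟩ := hSnet i 0 (zero_mem_pieceSet hK hL B i)
    exact card_pos.2 ⟨s, hs⟩
  have hpiece : ∀ i, log ((S i).card : ℝ) ≤
      192 * J * log (Q i).card + 100 * log ((Q i).card : ℝ) ^ 2 / B ^ J := fun i =>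
    piece J hJ hBbig hL (pieceSet K L B i) (pieceSet_compact hK hL B i)
      (zero_mem_pieceSet hK hL B i) (pieceSet_subset hB0 i) (S i) (hSA i)
      (fun s hs s' hs' hne => exists_dual hL (by positivity) (hSsep i s hs s' hs' hne))
      (Q i) (hQG i) hτ (hQnet i) (hQmax i)
  obtain ⟨I, hI⟩ : ∃ I, covNum K (B ^ I • L) ≤ 1 := by
    obtain ⟨r, hr, hball⟩ := Metric.isOpen_iff.1 isOpen_interior _ hL.zero_mem_interior
    obtain ⟨R, hR⟩ := hK.2.1.isBounded.exists_norm_le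
    obtain ⟨I, hI⟩ := pow_unbounded_of_one_lt (R / r) (by linarith : 1 < B)
    refine ⟨I, covNum_le_card {0} fun x hx => ⟨0, mem_singleton_self _, ?_⟩⟩
    refine ⟨(B ^ I)⁻¹ • x, interior_subset (hball ?_), by simp [hB0.ne']⟩
    rw [mem_ball_zero_iff, norm_smul, norm_inv, norm_pow, Real.norm_of_nonneg hB0.le,
      inv_mul_lt_iff₀ (by positivity)]
    rw [div_lt_iff₀ hr] at hI
    exact lt_of_le_of_lt (hR x hx) hI
  have htel : ∀ i, covNum K L ≤ covNum K (B ^ i • L) * ∏ j ∈ range i, (S (j + 1)).card := by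
    intro i
    induction i with
    | zero => simp
    | succ i ih =>
        refine ih.trans ?_
        rw [prod_range_succ]
        refine (Nat.mul_le_mul_right _ (descend hK hL hB0 i _ (hSnet (i + 1)))).trans (le_of_eq ?_)
        ring
  have hsum : H ≤ 192 * J * ∑ i ∈ range I, log ((Q (i + 1)).card : ℝ) +
      100 * (∑ i ∈ range I, log ((Q (i + 1)).card : ℝ) ^ 2) / B ^ J := by
    have h1 : covNum K L ≤ ∏ j ∈ range I, (S (j + 1)).card :=
      (htel I).trans (by simpa using Nat.mul_le_mul_right (∏ j ∈ range I, (S (j + 1)).card) hI)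
    rcases Nat.eq_zero_or_pos (covNum K L) with hz | hpos
    · rw [hH, hz, Nat.cast_zero, log_zero]
      have : 0 ≤ ∑ i ∈ range I, log ((Q (i + 1)).card : ℝ) :=
        sum_nonneg fun i _ => log_natCast_nonneg _
      positivity
    calc H ≤ log ((∏ j ∈ range I, (S (j + 1)).card : ℕ) : ℝ) :=
          log_le_log (by exact_mod_cast hpos) (by exact_mod_cast h1)
      _ = ∑ j ∈ range I, log ((S (j + 1)).card : ℝ) := by
          push_cast
          exact log_prod fun j _ => by exact_mod_cast (hSpos (j + 1)).ne'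
      _ ≤ _ := by
          rw [mul_sum, mul_sum, sum_div, ← sum_add_distrib]
          exact sum_le_sum fun j _ => hpiece (j + 1)
  have hclass : ∀ r, ∑ i ∈ (range I).filter (fun i => i % 7 = r), log ((Q (i + 1)).card : ℝ) ≤ Ψ := by
    intro r
    set T := ((range I).filter fun i => i % 7 = r).image (· + 1) with hT
    have hc := combine hK hL hB16 hτ hB6 T (fun i hi => by
      obtain ⟨j, -, rfl⟩ := mem_image.1 hi; omega) (fun i hi j hj hlt => by
      obtain ⟨i', hi', rfl⟩ := mem_image.1 hi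
      obtain ⟨j', hj', rfl⟩ := mem_image.1 hj
      have := (mem_filter.1 hi').2
      have := (mem_filter.1 hj').2
      omega) Q hQG hQsep
    calc _ = ∑ i ∈ T, log ((Q i).card : ℝ) := by
          rw [hT, sum_image fun a _ b _ h => Nat.add_right_cancel h]
      _ = log ((∏ i ∈ T, (Q i).card : ℕ) : ℝ) := by
          push_cast
          exact (log_prod fun i _ => by exact_mod_cast (hQpos i).ne').symm
      _ ≤ Ψ := log_le_log (by exact_mod_cast prod_pos fun i _ => hQpos i) (by exact_mod_cast hc)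
  have h7 : ∑ i ∈ range I, log ((Q (i + 1)).card : ℝ) ≤ 7 * Ψ := by
    rw [← sum_fiberwise_of_maps_to (t := range 7) (g := fun i => i % 7)
      (fun i _ => mem_range.2 (Nat.mod_lt _ (by norm_num)))]
    exact (sum_le_sum fun r _ => hclass r).trans (by simp)
  have hnn : ∀ i ∈ range I, 0 ≤ log ((Q (i + 1)).card : ℝ) := fun i _ => log_natCast_nonneg _
  have hsq : ∑ i ∈ range I, log ((Q (i + 1)).card : ℝ) ^ 2 ≤ (7 * Ψ) ^ 2 :=
    (sum_sq_le_sq_sum_of_nonneg hnn).trans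
      (pow_le_pow_left₀ (sum_nonneg hnn) h7 2)
  calc H ≤ _ := hsum
    _ ≤ 192 * J * (7 * Ψ) + 100 * (7 * Ψ) ^ 2 / B ^ J := by gcongr
    _ = _ := by ring

theorem one_direction :
    ∃ C : ℝ, 1 ≤ C ∧ ∀ J : ℕ, 4 ≤ J → ∀ (n : ℕ) (K L : Set (Fin n → ℝ)), IsBody K → IsBody L →
      log (covNum K L) ≤ C * J * log (covNum (polar L)
        ((C * (J : ℝ) ^ 6 * (2 + log (covNum K L)) ^ (6 / (J : ℝ)))⁻¹ • polar K)) := by
  classical
  set C : ℝ := 16 * 1000000 ^ 6 with hC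
  have hC1344 : 1344 ≤ C := by rw [hC]; norm_num
  have hC1 : 1 ≤ C := by linarith
  refine ⟨C, hC1, fun J hJ n K L hK hL => ?_⟩
  have hJ4 : (4 : ℝ) ≤ J := by exact_mod_cast hJ
  set H := log (covNum K L : ℝ) with hH
  have hH0 : 0 ≤ H := log_natCast_nonneg _
  set a := C * (J : ℝ) ^ 6 * (2 + H) ^ (6 / (J : ℝ)) with ha
  set Ψ := log (covNum (polar L) (a⁻¹ • polar K) : ℝ) with hΨ
  have hΨ0 : 0 ≤ Ψ := log_natCast_nonneg _
  by_cases htriv : H ≤ Ψ
  · exact htriv.trans (le_mul_of_one_le_left hΨ0 (one_le_mul_of_one_le_of_one_le hC1 (by linarith)))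
  push Not at htriv
  have ha0 : 0 < a := by
    have : 0 < C := by linarith
    positivity
  set B := max (bigB J) ((2 + H) ^ (1 / (J : ℝ))) with hBdef
  have hbig : 1000000 ≤ bigB J := by unfold bigB; linarith
  have hBbig : bigB J ≤ B := le_max_left _ _
  have hB16 : 16 ≤ B := by linarith
  have hB0 : 0 < B := by linarith
  have hBH : 2 + H ≤ B ^ J := by
    refine le_trans (le_of_eq ?_) (pow_le_pow_left₀ (by positivity) (le_max_right _ _) J)
    rw [← rpow_natCast ((2 + H) ^ (1 / (J : ℝ))), ← rpow_mul (by linarith),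
      div_mul_cancel₀ _ (by linarith), rpow_one]
  have hB6 : 16 * B ^ 6 ≤ a := by
    have h1 : B ^ 6 ≤ bigB J ^ 6 * (2 + H) ^ (6 / (J : ℝ)) := by
      rcases le_total (bigB J) ((2 + H) ^ (1 / (J : ℝ))) with h | h
      · rw [hBdef, max_eq_right h]
        calc ((2 + H) ^ (1 / (J : ℝ))) ^ 6 = (2 + H) ^ (6 / (J : ℝ)) := by
              rw [← rpow_natCast ((2 + H) ^ (1 / (J : ℝ))), ← rpow_mul (by linarith)]
              congr 1; push_cast; ring
          _ ≤ _ := le_mul_of_one_le_left (rpow_nonneg (by linarith) _)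
              (one_le_pow₀ (by linarith))
      · rw [hBdef, max_eq_left h]
        exact le_mul_of_one_le_right (by positivity) (one_le_rpow (by linarith) (by positivity))
    calc 16 * B ^ 6 ≤ 16 * (bigB J ^ 6 * (2 + H) ^ (6 / (J : ℝ))) := by gcongr
      _ = a := by rw [ha, hC]; unfold bigB; rw [mul_pow]; ring
  have h := trade_off J hJ B a hBbig hB6 n K L hK hL
  rw [← hH, ← hΨ] at h
  have h2 : Ψ ^ 2 / B ^ J ≤ Ψ := by
    rw [div_le_iff₀ (pow_pos hB0 J), pow_two]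
    exact mul_le_mul_of_nonneg_left (by linarith) hΨ0
  have h3 : 4900 * Ψ ^ 2 / B ^ J ≤ 4900 * Ψ := by rw [mul_div_assoc]; linarith
  have h4 : 1344 * (J : ℝ) * Ψ + 4900 * Ψ ≤ C * J * Ψ := by
    rw [← add_mul]
    refine mul_le_mul_of_nonneg_right ?_ hΨ0
    have : (6244 : ℝ) ≤ C := by rw [hC]; norm_num
    nlinarith
  linarith

/-- Both inequalities, uniformly in the number of steps. -/
theorem two_sided :
    ∃ C : ℝ, 1 ≤ C ∧ ∀ J : ℕ, 4 ≤ J → ∀ (n : ℕ) (K L : Set (Fin n → ℝ)), IsBody K → IsBody L →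
      log (covNum K L) ≤ C * J * log (covNum (polar L)
        ((C * (J : ℝ) ^ 6 * (2 + log (covNum K L)) ^ (6 / (J : ℝ)))⁻¹ • polar K)) ∧
      log (covNum (polar L) (polar K)) ≤ C * J * log (covNum K
        ((C * (J : ℝ) ^ 6 * (2 + log (covNum (polar L) (polar K))) ^ (6 / (J : ℝ)))⁻¹ • L)) := by
  obtain ⟨C, hC, h⟩ := one_direction
  refine ⟨C, hC, fun J hJ n K L hK hL => ⟨h J hJ n K L hK hL, ?_⟩⟩
  have := h J hJ n (polar L) (polar K) (isBody_polar hL) (isBody_polar hK)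
  rwa [polar_polar hL, polar_polar hK] at this

/-- Enlarging the scale can only enlarge the covering number. -/
theorem covNum_scale_mono {A B : Set (Fin n → ℝ)} (hA : IsCompact A) (hB : IsBody B)
    {a a' : ℝ} (ha : 0 < a) (haa : a ≤ a') :
    covNum A (a⁻¹ • B) ≤ covNum A (a'⁻¹ • B) := by
  obtain ⟨v, hv⟩ := coveredBy_covNum hA
    (smul_interior_nonempty hB.2.2.1 (inv_ne_zero (ha.trans_le haa).ne'))
  refine Nat.sInf_le ⟨v, hv.trans (Set.iUnion_mono fun i => Set.image_mono ?_)⟩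
  rintro _ ⟨b, hb, rfl⟩
  refine ⟨(a * a'⁻¹) • b, hB.1.smul_mem_of_zero_mem hB.zero_mem hb ⟨?_, ?_⟩, ?_⟩
  · have := ha.trans_le haa
    positivity
  · rwa [← div_eq_mul_inv, div_le_one (ha.trans_le haa)]
  · simp only [smul_smul]
    congr 1
    field_simp

/-- A factor depending only on the exponent of the scale. -/
theorem fixed_exponent (η : ℝ) (hη : 0 < η) :
    ∃ C : ℝ, 1 ≤ C ∧ ∀ (n : ℕ) (K L : Set (Fin n → ℝ)), IsBody K → IsBody L →
      log (covNum K L) ≤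
        C * log (covNum (polar L) ((C * (2 + log (covNum K L)) ^ η)⁻¹ • polar K)) ∧
      log (covNum (polar L) (polar K)) ≤
        C * log (covNum K ((C * (2 + log (covNum (polar L) (polar K))) ^ η)⁻¹ • L)) := by
  obtain ⟨C, hC, h⟩ := two_sided
  set J := max 4 (Nat.ceil (6 / η)) with hJdef
  have hJ : 4 ≤ J := le_max_left _ _
  have hJ4 : (4 : ℝ) ≤ J := by exact_mod_cast hJ
  have hJη : (6 : ℝ) / J ≤ η := by
    have h : (6 : ℝ) / η ≤ J := (Nat.le_ceil _).trans (by exact_mod_cast le_max_right _ _)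
    rw [div_le_iff₀ hη] at h
    rw [div_le_iff₀ (by linarith)]
    linarith
  have hJ1 : 1 ≤ (J : ℝ) := by linarith
  have hC0 : 0 < C := by linarith
  set C' := C * (J : ℝ) ^ 6 with hC'
  have hCJ : C * J ≤ C' := mul_le_mul_of_nonneg_left (le_self_pow₀ hJ1 (by norm_num)) hC0.le
  refine ⟨C', one_le_mul_of_one_le_of_one_le hC (one_le_pow₀ hJ1), fun n K L hK hL => ?_⟩
  have key : ∀ x : ℝ, 0 ≤ x → 0 < C' * (2 + x) ^ (6 / (J : ℝ)) ∧
      C' * (2 + x) ^ (6 / (J : ℝ)) ≤ C' * (2 + x) ^ η := fun x hx => by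
    refine ⟨by positivity, mul_le_mul_of_nonneg_left ?_ (by positivity)⟩
    exact rpow_le_rpow_of_exponent_le (by linarith) hJη
  have mono : ∀ x y : ℕ, x ≤ y → C * J * log (x : ℝ) ≤ C' * log (y : ℝ) := fun x y hxy => by
    refine mul_le_mul hCJ ?_ (log_natCast_nonneg _) (by positivity)
    rcases Nat.eq_zero_or_pos x with h0 | h0
    · simp [h0, log_natCast_nonneg]
    · exact log_le_log (by exact_mod_cast h0) (by exact_mod_cast hxy)
  obtain ⟨h1, h2⟩ := h J hJ n K L hK hL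
  obtain ⟨p1, q1⟩ := key _ (log_natCast_nonneg (covNum K L))
  obtain ⟨p2, q2⟩ := key _ (log_natCast_nonneg (covNum (polar L) (polar K)))
  exact ⟨h1.trans (mono _ _ (covNum_scale_mono (isBody_polar hL).2.1 (isBody_polar hK) p1 q1)),
    h2.trans (mono _ _ (covNum_scale_mono hK.2.1 hL p2 q2))⟩

/-- At an absolute scale: linear plus an arbitrarily small multiple of the square. -/
theorem absolute_scale :
    (∃ C : ℝ, 1 ≤ C ∧ ∀ J : ℕ, 4 ≤ J → ∀ B : ℝ, C * J ≤ B →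
      ∀ (n : ℕ) (K L : Set (Fin n → ℝ)), IsBody K → IsBody L →
        log (covNum K L) ≤ C * J * log (covNum (polar L) ((C * B ^ 6)⁻¹ • polar K)) +
          C * log (covNum (polar L) ((C * B ^ 6)⁻¹ • polar K)) ^ 2 / B ^ J ∧
        log (covNum (polar L) (polar K)) ≤ C * J * log (covNum K ((C * B ^ 6)⁻¹ • L)) +
          C * log (covNum K ((C * B ^ 6)⁻¹ • L)) ^ 2 / B ^ J) ∧
    ∀ δ : ℝ, 0 < δ → ∃ C : ℝ, 1 ≤ C ∧
      ∀ (n : ℕ) (K L : Set (Fin n → ℝ)), IsBody K → IsBody L →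
        log (covNum K L) ≤ C * log (covNum (polar L) (C⁻¹ • polar K)) +
          δ * log (covNum (polar L) (C⁻¹ • polar K)) ^ 2 ∧
        log (covNum (polar L) (polar K)) ≤ C * log (covNum K (C⁻¹ • L)) +
          δ * log (covNum K (C⁻¹ • L)) ^ 2 := by
  have dual : ∀ (J : ℕ), 4 ≤ J → ∀ (B a : ℝ), bigB J ≤ B → 16 * B ^ 6 ≤ a →
      ∀ (n : ℕ) (K L : Set (Fin n → ℝ)), IsBody K → IsBody L →
      log (covNum (polar L) (polar K)) ≤ 1344 * J * log (covNum K (a⁻¹ • L)) +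
        4900 * log (covNum K (a⁻¹ • L)) ^ 2 / B ^ J := by
    intro J hJ B a hB ha n K L hK hL
    have := trade_off J hJ B a hB ha n (polar L) (polar K) (isBody_polar hL) (isBody_polar hK)
    rwa [polar_polar hL, polar_polar hK] at this
  refine ⟨⟨1000000, by norm_num, fun J hJ B hB n K L hK hL => ?_⟩, fun δ hδ => ?_⟩
  · have hJ4 : (4 : ℝ) ≤ J := by exact_mod_cast hJ
    have hB' : bigB J ≤ B := by unfold bigB; exact hB
    have hB0 : 0 < B := by linarith
    have ha : 16 * B ^ 6 ≤ 1000000 * B ^ 6 :=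
      mul_le_mul_of_nonneg_right (by norm_num) (by positivity)
    have key : ∀ x : ℝ, 0 ≤ x → 1344 * (J : ℝ) * x + 4900 * x ^ 2 / B ^ J ≤
        1000000 * (J : ℝ) * x + 1000000 * x ^ 2 / B ^ J := fun x hx => by
      gcongr <;> norm_num
    exact ⟨(trade_off J hJ B _ hB' ha n K L hK hL).trans (key _ (log_natCast_nonneg _)),
      (dual J hJ B _ hB' ha n K L hK hL).trans (key _ (log_natCast_nonneg _))⟩
  · set B := max (bigB 4) (4900 / δ) with hB
    have hbig : bigB 4 ≤ B := le_max_left _ _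
    have hB1 : (4000000 : ℝ) ≤ B := le_trans (by unfold bigB; norm_num) hbig
    have hsq : 4900 / B ^ 4 ≤ δ := by
      have h1 : 4900 / δ ≤ B := le_max_right _ _
      have h2 : B ≤ B ^ 4 := le_self_pow₀ (by linarith) (by norm_num)
      rw [div_le_iff₀ (by positivity)]
      rw [div_le_iff₀ hδ] at h1
      nlinarith
    have hC : (5376 : ℝ) ≤ 16 * B ^ 6 := by
      have : B ≤ B ^ 6 := le_self_pow₀ (by linarith) (by norm_num)
      linarith
    refine ⟨16 * B ^ 6, by linarith, fun n K L hK hL => ?_⟩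
    have key : ∀ x : ℝ, 0 ≤ x → 1344 * ((4 : ℕ) : ℝ) * x + 4900 * x ^ 2 / B ^ 4 ≤
        16 * B ^ 6 * x + δ * x ^ 2 := fun x hx => by
      rw [mul_div_right_comm]
      refine add_le_add (mul_le_mul_of_nonneg_right ?_ hx)
        (mul_le_mul_of_nonneg_right hsq (sq_nonneg x))
      norm_num
      linarith
    exact ⟨(trade_off 4 le_rfl B _ hbig le_rfl n K L hK hL).trans (key _ (log_natCast_nonneg _)),
      (dual 4 le_rfl B _ hbig le_rfl n K L hK hL).trans (key _ (log_natCast_nonneg _))⟩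

end Vale.Agent.P126

end
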